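import Vale.Agent.P004C.As.St
import Vale.Agent.P004C.Al.Gb0
import Mathlib.RingTheory.Ideal.Norm.RelNorm

/-!
# P004 C, block AS: the ideal `v` (row VAQ)
-/

set_option linter.unusedSectionVars false

open NumberField Module
open scoped Classical

noncomputable section

namespace Vale.Agent.P004C.As

open Al.Gx

namespace Vq

variable {K : Type} [Field K] [NumberField K] {ι : ℂ →+* ℂ_[2]} {J : K →+* ℂ} {Ω : ℝ}
  {M : Type} [Field M] [NumberField M] [Algebra K M]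

theorem vv_ne : vv ι J ≠ ⊥ := fun h =>
  two_ne_zero ((Submodule.mem_bot (𝓞 K)).1 (h ▸ (two_vv : (2 : 𝓞 K) ∈ vv ι J)))

theorem vv_max : (vv ι J).IsMaximal := vv_prime.isMaximal vv_ne

variable (J) in
/-- the conjugate embedding -/
abbrev Jc : K →+* ℂ := (starRingEnd ℂ).comp J

theorem vv_cop (h : Base ι J Ω) : vv ι J ⊔ vv ι (Jc J) = ⊤ := by
  obtain ⟨x, a, b⟩ := h.spl
  exact vv_max.coprime_of_ne vv_max fun e => (not_vv (J := Jc J)).2 b (e ▸ (mem_vv.2 a))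

theorem vv_two (h : Base ι J Ω) : vv ι J * vv ι (Jc J) = Ideal.span {2} ∧
    Ideal.absNorm (vv ι J) = 2 := by
  have a : Ideal.span {(2 : 𝓞 K)} ≤ vv ι J * vv ι (Jc J) := by
    rw [Ideal.mul_eq_inf_of_coprime (vv_cop h), Ideal.span_singleton_le_iff_mem]
    exact ⟨two_vv, two_vv⟩
  obtain ⟨c, hc⟩ := Ideal.dvd_iff_le.2 a
  have n : Ideal.absNorm (Ideal.span {(2 : 𝓞 K)}) = 4 := by
    have := Ideal.absNorm_span_natCast (S := 𝓞 K) 2
    rw [RingOfIntegers.rank, h.two] at this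
    simpa using this
  have e := congrArg Ideal.absNorm hc
  rw [n, map_mul, map_mul] at e
  have b1 : Ideal.absNorm (vv ι J) ≠ 1 := fun k =>
    vv_max.ne_top (Ideal.absNorm_eq_one_iff.1 k)
  have b2 : Ideal.absNorm (vv ι (Jc J)) ≠ 1 := fun k =>
    vv_max.ne_top (Ideal.absNorm_eq_one_iff.1 k)
  have k : Ideal.absNorm c = 1 ∧ Ideal.absNorm (vv ι J) = 2 := by
    generalize Ideal.absNorm c = z, Ideal.absNorm (vv ι J) = x,
      Ideal.absNorm (vv ι (Jc J)) = y at e b1 b2 ⊢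
    have x0 : x ≠ 0 := by rintro rfl; simp at e
    have y0 : y ≠ 0 := by rintro rfl; simp at e
    have z0 : z ≠ 0 := by rintro rfl; simp at e
    obtain ⟨x, rfl⟩ : ∃ t, x = t + 2 := ⟨x - 2, by omega⟩
    obtain ⟨y, rfl⟩ : ∃ t, y = t + 2 := ⟨y - 2, by omega⟩
    obtain ⟨z, rfl⟩ : ∃ t, z = t + 1 := ⟨z - 1, by omega⟩
    constructor <;> nlinarith [Nat.zero_le (x * y * z), Nat.zero_le (x * y), Nat.zero_le (x * z),
      Nat.zero_le (y * z)]
  rw [Ideal.absNorm_eq_one_iff.1 k.1, Ideal.mul_top] at hc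
  exact ⟨hc.symm, k.2⟩

variable (ι J M) in
/-- the extension of `v` -/
abbrev VV : Ideal (𝓞 M) := (vv ι J).map (algebraMap (𝓞 K) (𝓞 M))

theorem VV_two (h : Base ι J Ω) : VV ι J M * VV ι (Jc J) M = Ideal.span {2} := by
  rw [← Ideal.map_mul, (vv_two h).1, Ideal.map_span, Set.image_singleton, map_ofNat]

theorem ex_one {s : 𝓞 K} (a : ‖ι (J s)‖ = 1) (m : ℕ) :
    ∃ p ∈ vv ι J ^ m, ∃ r, p + r * s = 1 := by
  obtain ⟨r, q, hq, e⟩ := vv_max.exists_inv (not_vv.2 a)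
  obtain ⟨u, w, k⟩ := (show IsCoprime q s from ⟨1, r, by linear_combination e⟩).pow_left (m := m)
  exact ⟨u * q ^ m, Ideal.mul_mem_left _ _ (Ideal.pow_mem_pow hq m), w, k⟩

theorem qm_eq (h : Base ι J Ω) (m : ℕ) : Qm ι J M m = VV ι J M ^ m := by
  have e2 : Ideal.span {(2 : 𝓞 M) ^ m} = VV ι J M ^ m * VV ι (Jc J) M ^ m := by
    rw [← mul_pow, VV_two h, Ideal.span_singleton_pow]
  refine le_antisymm (fun y hy => ?_) fun y hy => ?_
  · obtain ⟨s, a, b⟩ : Vi ι J ((y : M) / 2 ^ m) := hy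
    have c : algebraMap (𝓞 K) (𝓞 M) s * y ∈ VV ι J M ^ m := by
      have c0 : algebraMap (𝓞 K) (𝓞 M) s * y ∈ Ideal.span {(2 : 𝓞 M) ^ m} := by
        refine Ideal.mem_span_singleton'.2 ⟨⟨_, b⟩, ?_⟩
        apply RingOfIntegers.ext
        show algebraMap K M s * ((y : M) / 2 ^ m) * 2 ^ m = algebraMap K M s * y
        field_simp
      rw [e2] at c0
      exact Ideal.mul_le_left c0
    obtain ⟨p, hp, r, e⟩ := ex_one a m
    have f : y = algebraMap (𝓞 K) (𝓞 M) p * y +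
        algebraMap (𝓞 K) (𝓞 M) r * (algebraMap (𝓞 K) (𝓞 M) s * y) := by
      rw [← mul_assoc, ← map_mul, ← add_mul, ← map_add, e, map_one, one_mul]
    have g : algebraMap (𝓞 K) (𝓞 M) p ∈ VV ι J M ^ m := by
      rw [← Ideal.map_pow]
      exact Ideal.mem_map_of_mem _ hp
    rw [f]
    exact add_mem (Ideal.mul_mem_right _ _ g) (Ideal.mul_mem_left _ _ c)
  · obtain ⟨p, hp, t, ht, e⟩ :=
      Submodule.mem_sup.1 (vv_cop h ▸ Submodule.mem_top (x := (1 : 𝓞 K)))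
    have a : ‖ι (J t)‖ = 1 := not_vv.1 fun k =>
      vv_max.ne_top ((Ideal.eq_top_iff_one _).2 (e ▸ add_mem hp k))
    have c0 := Ideal.mul_mem_mul hy
      (Ideal.pow_mem_pow (Ideal.mem_map_of_mem (algebraMap (𝓞 K) (𝓞 M)) ht) m)
    rw [← e2] at c0
    obtain ⟨z, hz⟩ := Ideal.mem_span_singleton'.1 c0
    show Vi ι J ((y : M) / 2 ^ m)
    refine ⟨t ^ m, by simp [a], ?_⟩
    have e3 : (z : M) * 2 ^ m = y * algebraMap K M t ^ m := congrArg (fun w : 𝓞 M => (w : M)) hz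
    have e4 : algebraMap K M ((t ^ m : 𝓞 K) : K) * ((y : M) / 2 ^ m) = z := by
      show algebraMap K M ((t : K) ^ m) * _ = _
      rw [map_pow]
      field_simp
      linear_combination -e3
    exact e4 ▸ z.isIntegral_coe

theorem qm_one (h : Base ι J Ω) : Qm ι J M 1 = VV ι J M := by rw [qm_eq h, pow_one]

theorem qm_zero : Qm ι J M 0 = ⊤ :=
  top_unique fun y _ => show Vi ι J ((y : M) / 2 ^ 0) by simpa using Vi_of ι J y

theorem pv_iff {I : Ideal (𝓞 M)} : Pv ι J I ↔ I ⊔ VV ι J M = ⊤ := by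
  refine ⟨fun ⟨s, a, b⟩ => ?_, fun k => pv_of fun Q p a c => p.ne_top (top_unique
    (k ▸ sup_le a (Ideal.map_le_iff_le_comap.2 c.ge)))⟩
  obtain ⟨r, q, hq, e⟩ := vv_max.exists_inv (not_vv.2 a)
  refine (Ideal.eq_top_iff_one _).2 ?_
  rw [← map_one (algebraMap (𝓞 K) (𝓞 M)), ← e, map_add, map_mul]
  exact add_mem (Ideal.mem_sup_left (Ideal.mul_mem_left _ _ b))
    (Ideal.mem_sup_right (Ideal.mem_map_of_mem _ hq))

theorem vi_cancel {x : M} {I A : Ideal (𝓞 M)} (h : Pv ι J I) (k : ∀ y ∈ I * A, Vi ι J (x * y))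
    (y : 𝓞 M) (hy : y ∈ A) : Vi ι J (x * y) := by
  obtain ⟨s, a, b⟩ := h
  obtain ⟨t, c, d⟩ := k _ (Ideal.mul_mem_mul b hy)
  refine ⟨t * s, by simp [a, c], ?_⟩
  have e : algebraMap K M ((t * s : 𝓞 K) : K) * (x * y) =
      algebraMap K M t * (x * ((algebraMap (𝓞 K) (𝓞 M) s * y : 𝓞 M) : M)) := by
    show algebraMap K M ((t : K) * (s : K)) * _ = algebraMap K M t * (x * (algebraMap K M s * y))
    rw [map_mul]
    ring
  exact e ▸ d

theorem rk : finrank (𝓞 K) (𝓞 M) = finrank K M := 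
  (IsFractionRing.finrank_eq (𝓞 K) K (𝓞 M) M).symm

end Vq

open Vq in
theorem vaq0 : VAQ := fun K _ _ ι J Ω h M _ _ _ => by
  refine ⟨fun I => by rw [qm_one h, pv_iff], fun P => and_congr_right fun p => ?_,
    fun m => by rw [qm_one h, qm_eq h], ?_, fun x I A => vi_cancel⟩
  · rw [qm_one h, pv_iff]
    exact ⟨fun k => le_sup_right.trans (p.eq_of_le k le_sup_left).ge, fun k e =>
      p.ne_top (by rwa [sup_eq_left.2 k] at e)⟩
  · rw [qm_one h, Ideal.absNorm_algebraMap, (vv_two h).2, rk]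

theorem vaq (_ : VAL) : VAQ := vaq0

end Vale.Agent.P004C.As
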