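import Vale.Agent.P004C.As.St
import Vale.Agent.P004C.Al.Gb0

/-!
# P004 C, block AS: the Fourier transform of the units at `v` (row FOU)
-/

set_option linter.unusedSectionVars false

open NumberField Module Finset
open scoped Classical

noncomputable section

namespace Vale.Agent.P004C.As

open Al.Gx

namespace Fo

/-- the sum of an additive character over an ideal modulo a smaller ideal -/
theorem sum_id {R : Type} [CommRing R] {Q I : Ideal R} (h : Q ≤ I) [Fintype (R ⧸ Q)]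
    (r : R ⧸ Q → R) (hr : ∀ a, Ideal.Quotient.mk Q (r a) = a) (χ : R → ℂ)
    (ad : ∀ a b, χ (a + b) = χ a * χ b) (hq : ∀ y ∈ Q, χ y = 1) :
    (Nat.card (R ⧸ I) : ℂ) * ∑ a, (if r a ∈ I then χ (r a) else 0) =
      if ∀ y ∈ I, χ y = 1 then (Nat.card (R ⧸ Q) : ℂ) else 0 := by
  split_ifs with t
  · let f := (Ideal.Quotient.factor h).toAddMonoidHom
    have e : ∀ a, r a ∈ I ↔ a ∈ f.ker := fun a => by
      rw [AddMonoidHom.mem_ker, ← Ideal.Quotient.eq_zero_iff_mem, ← Ideal.Quotient.factor_mk h, hr]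
      rfl
    have c := f.ker.card_mul_index
    rw [AddSubgroup.index_ker, (AddMonoidHom.range_eq_top (f := f)).2
      (Ideal.Quotient.factor_surjective h), AddSubgroup.card_top] at c
    rw [sum_congr rfl fun a _ => (show (if r a ∈ I then χ (r a) else 0) =
      if a ∈ f.ker then (1 : ℂ) else 0 by
        by_cases k : r a ∈ I
        · rw [if_pos k, if_pos ((e a).1 k), t _ k]
        · rw [if_neg k, if_neg (mt (e a).2 k)]), sum_boole, ← c, Nat.cast_mul, mul_comm,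
      Nat.card_eq_fintype_card (α := f.ker), Fintype.card_subtype]
  · push Not at t
    obtain ⟨y, hy, n⟩ := t
    have e := Equiv.sum_comp (Equiv.addRight (Ideal.Quotient.mk Q y))
      fun a => if r a ∈ I then χ (r a) else 0
    have k : ∀ a, (if r (a + Ideal.Quotient.mk Q y) ∈ I then χ (r (a + Ideal.Quotient.mk Q y))
        else 0) = χ y * if r a ∈ I then χ (r a) else 0 := fun a => by
      obtain ⟨q, m, z⟩ : ∃ q ∈ Q, r (a + Ideal.Quotient.mk Q y) = r a + y + q :=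
        ⟨_, Ideal.Quotient.eq.1 (by rw [hr, map_add, hr]), (add_sub_cancel _ _).symm⟩
      rw [z, ad, ad, hq q m, I.add_mem_iff_left (h m), I.add_mem_iff_left hy]
      split_ifs <;> ring
    rw [eq_zero_of_mul_eq_self_left n (((mul_sum _ _ _).trans
      (sum_congr rfl fun a _ => (k a).symm)).trans e), mul_zero]

/-- inclusion and exclusion -/
theorem incl {R : Type} [CommRing R] (S : Finset (Ideal R)) (h : ∀ P ∈ S, P.IsMaximal) (y : R) :
    (if ∀ P ∈ S, y ∉ P then (1 : ℂ) else 0) =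
      ∑ T ∈ S.powerset, (-1) ^ T.card * if y ∈ ∏ P ∈ T, P then 1 else 0 := by
  have e := prod_one_add (f := fun P : Ideal R => -if y ∈ P then (1 : ℂ) else 0) S
  rw [← prod_boole, prod_congr rfl fun P _ => (show (if y ∉ P then (1 : ℂ) else 0) =
    1 + -if y ∈ P then (1 : ℂ) else 0 by by_cases k : y ∈ P <;> simp [k]), e]
  refine sum_congr rfl fun T hT => ?_
  rw [prod_neg, prod_boole, Ideal.prod_eq_iInf_of_pairwise_isCoprime fun a ha b hb n =>
    have := h a (mem_powerset.1 hT ha)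
    have := h b (mem_powerset.1 hT hb)
    Ideal.isCoprime_of_isMaximal n]
  simp only [Ideal.mem_iInf]

variable {K : Type} [Field K] [NumberField K] {ι : ℂ →+* ℂ_[2]} {J : K →+* ℂ}
  {M : Type} [Field M] [NumberField M] [Algebra K M] {ψ : AddChar K ℂ} {y₀ x : M}

/-- the additive character of the integers attached to `x` -/
def ch (ψ : AddChar K ℂ) (y₀ x : M) (r : 𝓞 M) : ℂ := ψ (-Algebra.trace K M (x * (y₀ * r)))

theorem ch_add (a b : 𝓞 M) : ch ψ y₀ x (a + b) = ch ψ y₀ x a * ch ψ y₀ x b := by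
  simp only [ch, map_add, mul_add, neg_add, AddChar.map_add_eq_mul, RingOfIntegers.coe_eq_algebraMap]

theorem ps_one (p : Ps ι J ψ) (d : ∀ x, Fd ι J 0 (y₀ * x) ↔ Vi ι J x) (h : Vi ι J x) :
    ψ (-Algebra.trace K M (y₀ * x)) = 1 :=
  (p _).2 (by simpa using (d x).2 h 1)

theorem ch_triv (p : Ps ι J ψ) (d : ∀ x, Fd ι J 0 (y₀ * x) ↔ Vi ι J x) (I : Ideal (𝓞 M)) :
    (∀ y ∈ I, ch ψ y₀ x y = 1) ↔ ∀ y ∈ I, Vi ι J (x * y) :=
  ⟨fun h y hy => (d _).1 fun r => by
    have := (p _).1 (h _ (I.mul_mem_left r hy))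
    rw [map_neg, map_neg, norm_neg, show x * (y₀ * ((r * y : 𝓞 M) : M)) = r * (y₀ * (x * y)) by
      simp only [RingOfIntegers.coe_eq_algebraMap, map_mul]; ring] at this
    simpa using this,
  fun h y hy => by rw [ch, mul_left_comm]; exact ps_one p d (h y hy)⟩

theorem mem_Q {m : ℕ} {y : 𝓞 M} : y ∈ Qm ι J M m ↔ Vi ι J ((y : M) / 2 ^ m) := Iff.rfl

/-- outside the primes above `v` the norm is a unit -/
theorem nm_one (a : VAL) (q : VAQ) {Ω : ℝ} (B : Base ι J Ω) {y : 𝓞 M}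
    (h : ∀ P, Av ι J P → y ∉ P) : ‖ι (J (Algebra.norm K (y : M)))‖ = 1 := by
  refine (((a K ι J Ω B).2.2 M).2.2.2.2 y).1 (((q K ι J Ω B M).1 _).2 ?_)
  by_contra n
  obtain ⟨P, m, l⟩ := Ideal.exists_le_maximal _ n
  exact h P (((q K ι J Ω B M).2.1 P).2 ⟨m, le_sup_right.trans l⟩)
    (l (Ideal.mem_sup_left (Ideal.mem_span_singleton_self y)))

end Fo

open Fo

theorem fou (a : VAL) (q : VAQ) : FOU := fun K _ _ ι J Ω B ψ p M _ _ _ n hn y₀ d S hS => by
  obtain ⟨-, q2, -, q4, -⟩ := q K ι J Ω B M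
  have fin : Finite (𝓞 M ⧸ Qm ι J M 1) := (Ideal.absNorm_ne_zero_iff _).1 (by rw [q4]; positivity)
  have := Fintype.ofFinite (𝓞 M ⧸ Qm ι J M 1)
  obtain ⟨r, hr⟩ := (Ideal.Quotient.mk_surjective (I := Qm ι J M 1)).hasRightInverse
  refine ⟨{a // ∀ P ∈ S, r a ∉ P}, inferInstance, fun i => r i,
    fun i => nm_one a q B fun P h => i.2 P ((hS P).2 h), fun x hx => ?_⟩
  have hq : ∀ y ∈ Qm ι J M 1, ch ψ y₀ x y = 1 := (ch_triv p d _).2 fun y hy => by
    have := Vi_mul hx (mem_Q.1 hy)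
    rwa [pow_one, show 2 * x * ((y : M) / 2) = x * y by ring] at this
  rw [hv, if_pos (by rwa [pow_one])]
  show (∑ i : {a // ∀ P ∈ S, r a ∉ P}, 1 * ch ψ y₀ x (r i)) / _ = _
  rw [← sum_subtype (univ.filter fun a => ∀ P ∈ S, r a ∉ P)
    (by simp) fun a => 1 * ch ψ y₀ x (r a), sum_filter, sum_congr rfl fun a _ => (show (if ∀ P ∈ S, r a ∉ P then 1 * ch ψ y₀ x (r a) else 0) =
    ∑ T ∈ S.powerset, (-1) ^ T.card * if r a ∈ ∏ P ∈ T, P then ch ψ y₀ x (r a) else 0 by
      rw [← ite_zero_mul, incl S fun P h => ((hS P).1 h).1, sum_mul]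
      simp only [mul_assoc, boole_mul]), sum_comm, sum_div]
  refine sum_congr rfl fun T hT => ?_
  have l : Qm ι J M 1 ≤ ∏ P ∈ T, P := by
    rw [Ideal.prod_eq_iInf_of_pairwise_isCoprime fun a ha b hb n =>
      have := ((hS a).1 (mem_powerset.1 hT ha)).1
      have := ((hS b).1 (mem_powerset.1 hT hb)).1
      Ideal.isCoprime_of_isMaximal n]
    exact le_iInf₂ fun P h => ((q2 P).1 ((hS P).1 (mem_powerset.1 hT h))).2
  have e := sum_id l r hr (ch ψ y₀ x) ch_add hq
  rw [← Submodule.cardQuot_apply, ← Submodule.cardQuot_apply, ← Ideal.absNorm_apply,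
    ← Ideal.absNorm_apply, q4, hn] at e
  have z : (Ideal.absNorm (∏ P ∈ T, P) : ℂ) ≠ 0 := Nat.cast_ne_zero.2 fun k => by
    have := Ideal.absNorm_dvd_absNorm_of_le l
    rw [k, q4, zero_dvd_iff] at this
    exact absurd this (by positivity)
  rw [← mul_sum, (eq_div_iff z).2 ((mul_comm _ _).trans e), one_mul]
  by_cases t : ∀ y ∈ ∏ P ∈ T, P, Vi ι J (x * y)
  · rw [if_pos t, if_pos ((ch_triv p d _).2 t)]
    push_cast
    field_simp
  · rw [if_neg t, if_neg (mt (ch_triv p d _).1 t)]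
    simp

end Vale.Agent.P004C.As
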