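import Vale.Agent.P004C.As.St

/-! # P004 C, block AS: row VTX -/

set_option autoImplicit false
set_option linter.all false

open NumberField Module Filter
open scoped Classical

noncomputable section

namespace Vale.Agent.P004C.As

namespace Vx

variable {M : Type} [Field M] [NumberField M]

theorem ex_int (x : M) : ∃ (k : ℤ) (y : 𝓞 M), k ≠ 0 ∧ (y : M) = k * x := by
  obtain ⟨k, k0, h⟩ := ((IsFractionRing.isAlgebraic_iff ℤ ℚ M).2
    (Algebra.IsAlgebraic.isAlgebraic x)).exists_integral_multiple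
  exact ⟨k, ⟨_, h⟩, k0, zsmul_eq_mul x k⟩

theorem ex_L (h : 𝓞 M →ₗ[ℤ] ℤ) : ∃ L : M →ₗ[ℚ] ℚ, ∀ y : 𝓞 M, L y = h y := by
  obtain ⟨L, hL⟩ : ∃ L : M →ₗ[ℚ] ℚ, ∀ i, L (integralBasis M i) = h (RingOfIntegers.basis M i) :=
    ⟨_, (integralBasis M).constr_basis ℚ _⟩
  refine ⟨L, fun y => ?_⟩
  rw [← (RingOfIntegers.basis M).sum_repr y]
  simp only [RingOfIntegers.coe_eq_algebraMap, map_sum, map_zsmul, ← integralBasis_apply, hL]
  simp

theorem ex_t {w : Ideal (𝓞 M)} (hw : w.IsMaximal) {N : ℕ} (hN : (N : 𝓞 M) ∉ w) :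
    ∃ t : 𝓞 M, ∀ x, Lf N w (x - 1) → Algebra.trace ℚ M (t * x) ≠ 0 := by
  let _ := Ideal.Quotient.field w
  have : Finite (𝓞 M ⧸ w) :=
    w.finiteQuotientOfFreeOfNeBot (w.bot_lt_of_maximal (RingOfIntegers.not_isField M)).ne'
  obtain ⟨p, hp⟩ := CharP.exists (𝓞 M ⧸ w)
  have : Fact p.Prime := ⟨CharP.char_is_prime (𝓞 M ⧸ w) p⟩
  let _ := ZMod.algebra (𝓞 M ⧸ w) p
  obtain ⟨lam, hl⟩ := not_forall.1 (mt (Module.forall_dual_apply_eq_zero_iff (ZMod p)
    (1 : 𝓞 M ⧸ w)).1 one_ne_zero)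
  obtain ⟨h, e⟩ := Module.projective_lifting_property (Int.castAddHom (ZMod p)).toIntLinearMap
    (lam.toAddMonoidHom.comp (Ideal.Quotient.mk w).toAddMonoidHom).toIntLinearMap
    ZMod.intCast_surjective
  have e' : ∀ y, (h y : ZMod p) = lam (Ideal.Quotient.mk w y) := fun y => LinearMap.congr_fun e y
  obtain ⟨L, hL⟩ := ex_L h
  obtain ⟨t, ht⟩ : ∃ t, ∀ x, Algebra.trace ℚ M (t * x) = L x :=
    ⟨_, LinearMap.BilinForm.apply_toDual_symm_apply (hB := traceForm_nondegenerate ℚ M) L⟩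
  obtain ⟨k, t', k0, e2⟩ := ex_int t
  refine ⟨t', fun x ⟨a, y, hy, e3⟩ z => hl ?_⟩
  rw [e2, mul_assoc, ← zsmul_eq_mul, map_zsmul, ht, smul_eq_zero_iff_right k0] at z
  have e4 : L ((y + N ^ a : 𝓞 M) : M) = 0 := by
    rw [show ((y + N ^ a : 𝓞 M) : M) = N ^ a • x by
      rw [nsmul_eq_mul]; push_cast; linear_combination -e3, map_nsmul, z, smul_zero]
  rw [hL, Int.cast_eq_zero] at e4
  have e5 := e' (y + N ^ a)
  rw [e4, Int.cast_zero, map_add, Ideal.Quotient.eq_zero_iff_mem.2 hy, zero_add, map_pow,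
    map_natCast, ← map_natCast (algebraMap (ZMod p) (𝓞 M ⧸ w)), ← map_pow,
    Algebra.algebraMap_eq_smul_one, map_smul, smul_eq_mul, eq_comm, mul_eq_zero] at e5
  refine e5.resolve_left (pow_ne_zero _ fun q => hN ?_)
  rw [← Ideal.Quotient.eq_zero_iff_mem, map_natCast,
    ← map_natCast (algebraMap (ZMod p) (𝓞 M ⧸ w)), q, map_zero]

theorem ex_pow {c : Ideal (𝓞 M)} (h : c ≠ ⊥) :
    ∃ (k : ℕ) (π : 𝓞 M), 0 < k ∧ c ^ k = Ideal.span {π} := by
  have m := mem_nonZeroDivisors_of_ne_zero h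
  obtain ⟨π, e⟩ := (ClassGroup.mk0_eq_one_iff (pow_mem m (Fintype.card (ClassGroup (𝓞 M))))).1 (by
    rw [← SubmonoidClass.mk_pow _ m, map_pow, pow_card_eq_one])
  exact ⟨_, π, Fintype.card_pos, e⟩

theorem ex_one {f : Ideal (𝓞 M)} (h : f ≠ ⊥) {π : 𝓞 M} (e : IsCoprime f (Ideal.span {π})) :
    ∃ k, 0 < k ∧ π ^ k - 1 ∈ f := by
  have := f.finiteQuotientOfFreeOfNeBot h
  obtain ⟨y, hy, z, hz, q⟩ := Submodule.mem_sup.1
    ((Ideal.isCoprime_iff_sup_eq.1 e).ge (Submodule.mem_top (x := 1)))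
  obtain ⟨u, rfl⟩ := Ideal.mem_span_singleton'.1 hz
  obtain ⟨v, hv⟩ : IsUnit (Ideal.Quotient.mk f π) := .of_mul_eq_one_right (Ideal.Quotient.mk f u)
    (by rw [← map_mul, ← map_one (Ideal.Quotient.mk f), ← q, map_add,
      Ideal.Quotient.eq_zero_iff_mem.2 hy, zero_add])
  obtain ⟨k, k0, e⟩ := (isOfFinOrder_of_finite v).exists_pow_eq_one
  refine ⟨k, k0, Ideal.Quotient.eq.1 ?_⟩
  rw [map_pow, ← hv, ← Units.val_pow_eq_pow_val, e, map_one, Units.val_one]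

variable {K : Type} [Field K] [NumberField K] [Algebra K M]

theorem ex_r {n : ℕ} (h : finrank K M = n) (a : Fin n → M) (j : Fin n) :
    ∃ r : 𝓞 M, r ≠ 0 ∧ ∀ i, i ≠ j → Algebra.trace K M (a i * r) = 0 := by
  have : FiniteDimensional K M := Module.finite_of_finrank_pos (h ▸ j.pos)
  let L : M →ₗ[K] ({i // i ≠ j} → K) :=
    LinearMap.pi fun i => (Algebra.trace K M).comp (LinearMap.mulLeft K (a i))
  obtain ⟨x, hx, x0⟩ := Submodule.exists_mem_ne_zero_of_ne_bot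
    (L.ker_ne_bot_of_finrank_lt (by
      rw [h, finrank_fintype_fun_eq_card]
      exact (Fintype.card_subtype_lt (x := j) (by simp)).trans_eq (Fintype.card_fin n)))
  obtain ⟨k, r, k0, e⟩ := ex_int x
  refine ⟨r, fun q => mul_ne_zero (Int.cast_ne_zero.2 k0) x0 (by rw [← e, q]; rfl), fun i m => ?_⟩
  rw [e, mul_left_comm, ← zsmul_eq_mul, map_zsmul, show Algebra.trace K M (a i * x) = 0 from
    congrFun (LinearMap.mem_ker.1 hx) ⟨i, m⟩, smul_zero]

end Vx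

open Vx in
theorem vtx : VTX := by
  intro K _ _ M _ _ _ n hn c l ⟨hl, _, nc, sq⟩ f A w N f0 fc cA hw fw hN S hS
  have c0 : c ≠ ⊥ := fun e => hl.ne_zero (by rw [← nc, e, Ideal.absNorm_bot])
  have cp : Prime c := Ideal.prime_of_isPrime c0
    (Ideal.isPrime_of_irreducible_absNorm (nc ▸ (Nat.irreducible_iff_nat_prime l).2 hl))
  have lc : (l : 𝓞 M) ∈ c := nc ▸ Ideal.absNorm_mem c
  have l0 : (l : 𝓞 M) ≠ 0 := Nat.cast_ne_zero.2 hl.ne_zero
  obtain ⟨c', e⟩ := Ideal.dvd_span_singleton.2 lc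
  have nd : ¬ c ∣ c' := fun q => sq (by rw [e, pow_two]; exact mul_dvd_mul_left c q)
  obtain ⟨h, π, h0, eπ⟩ := ex_pow c0
  obtain ⟨π', e'⟩ := Ideal.mem_span_singleton'.1 (eπ.le (Ideal.pow_mem_pow lc h))
  have eπ' : Ideal.span {π'} = c' ^ h := mul_right_cancel₀ (pow_ne_zero h c0) (by
    rw [← mul_pow, mul_comm c', ← e, eπ, Ideal.span_singleton_mul_span_singleton, e',
      Ideal.span_singleton_pow])
  obtain ⟨k, k0, hk⟩ := ex_one f0 (eπ ▸ (Ideal.isCoprime_iff_sup_eq.2 fc).pow_right)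
  obtain ⟨t, ht⟩ := ex_t hw hN
  obtain ⟨m, N₀, n0, eA⟩ := Nat.exists_eq_pow_mul_and_not_dvd
    (mt Ideal.absNorm_eq_zero_iff.1 cA.1) l hl.ne_one
  have dA : A ∣ c' ^ m * Ideal.span {(N₀ : 𝓞 M)} :=
    (Ideal.isCoprime_iff_sup_eq.2 cA.2).pow_right.dvd_of_dvd_mul_left (by
      rw [← mul_assoc, ← mul_pow, ← e, Ideal.span_singleton_pow,
        Ideal.span_singleton_mul_span_singleton, Ideal.dvd_span_singleton, ← Nat.cast_pow,
        ← Nat.cast_mul, ← eA]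
      exact Ideal.absNorm_mem A)
  have nN : ¬ c ∣ Ideal.span {(N₀ : 𝓞 M)} := fun q => by
    obtain ⟨u, v, uv⟩ := Nat.isCoprime_iff_coprime.2 (hl.coprime_iff_not_dvd.2 n0)
    refine cp.not_unit (Ideal.isUnit_iff.2 ((Ideal.eq_top_iff_one c).2 ?_))
    rw [← Int.cast_one, ← uv]
    push_cast
    exact add_mem (c.mul_mem_left _ lc) (c.mul_mem_left _ (Ideal.dvd_span_singleton.1 q))
  have key : ∀ (a : Fin n → M) j, ∀ᶠ b in atTop, ∃ d : 𝓞 M, d ∈ A ∧ d ∉ c ∧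
      ∀ i, i ≠ j → Algebra.trace K M (a i * (t * π ^ (k * b) : 𝓞 M) * d) = 0 := fun a j => by
    obtain ⟨r, r0, hr⟩ := ex_r hn (fun i => a i * t) j
    obtain ⟨ρ, R, nR, eR⟩ := WfDvdMonoid.max_power_factor
      (mt Ideal.span_singleton_eq_bot.1 r0) cp.irreducible
    filter_upwards [eventually_ge_atTop (ρ + m)] with b hb
    obtain ⟨s, hs⟩ := Nat.exists_eq_add_of_le (hb.trans
      (Nat.le_mul_of_pos_left b (Nat.mul_pos h0 k0)))
    have e1 : Ideal.span {r * π' ^ (k * b)} =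
        Ideal.span {(l : 𝓞 M) ^ ρ} * (R * c' ^ m * c' ^ s) := by
      rw [← Ideal.span_singleton_mul_span_singleton, ← Ideal.span_singleton_pow, eπ', eR,
        ← pow_mul, ← mul_assoc h, hs, ← Ideal.span_singleton_pow, e]
      ring
    obtain ⟨d, -, hd⟩ := Ideal.mem_span_singleton_mul.1 (e1.le (Ideal.mem_span_singleton_self _))
    rw [← hd, ← Ideal.span_singleton_mul_span_singleton,
      mul_right_inj' (mt Ideal.span_singleton_eq_bot.1 (pow_ne_zero ρ l0))] at e1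
    have e2 : Ideal.span {N₀ * d} = c' ^ m * Ideal.span {(N₀ : 𝓞 M)} * (R * c' ^ s) := by
      rw [← Ideal.span_singleton_mul_span_singleton, e1]
      ring
    refine ⟨N₀ * d, Ideal.dvd_span_singleton.1 (e2 ▸ dA.mul_right _), fun q => ?_, fun i m => ?_⟩
    · rw [← Ideal.dvd_span_singleton, e2, cp.dvd_mul, cp.dvd_mul, cp.dvd_mul] at q
      rcases q with (q | q) | q | q
      exacts [nd (cp.dvd_of_dvd_pow q), nN q, nR q, nd (cp.dvd_of_dvd_pow q)]
    · have e3 : (l : 𝓞 M) ^ ρ * (π ^ (k * b) * d) = (l ^ h) ^ (k * b) * r := by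
        rw [← e', mul_pow]
        linear_combination π ^ (k * b) * hd
      have e4 := congrArg (algebraMap (𝓞 M) M) e3
      rw [← smul_eq_zero_iff_right (pow_ne_zero ρ hl.ne_zero), ← map_nsmul,
        show l ^ ρ • (a i * (t * π ^ (k * b) : 𝓞 M) * (N₀ * d : 𝓞 M)) =
          (N₀ * (l ^ h) ^ (k * b)) • (a i * t * r) by
          simp only [nsmul_eq_mul, RingOfIntegers.coe_eq_algebraMap, map_mul, map_pow,
            map_natCast] at e4 ⊢
          push_cast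
          linear_combination a i * algebraMap _ _ t * N₀ * e4, map_nsmul, hr i m, smul_zero]
  obtain ⟨b, hb⟩ := ((eventually_all_finite (Set.Finite.pi' fun _ : Fin n => hS)).2
    fun a _ => eventually_all.2 (key a)).exists
  refine ⟨t * π ^ (k * b), fun x ⟨a, y, hy, q⟩ z => ht (π ^ (k * b) * x) ?_ ?_, hb⟩
  · obtain ⟨g, hg⟩ := sub_one_dvd_pow_sub_one (π ^ k) b
    refine ⟨a, π ^ (k * b) * y + N ^ a * ((π ^ k - 1) * g), fw (add_mem (f.mul_mem_left _ hy)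
      (f.mul_mem_left _ (f.mul_mem_right _ hk))), ?_⟩
    rw [← hg, ← pow_mul]
    simp only [RingOfIntegers.coe_eq_algebraMap, map_mul, map_pow, map_natCast, map_add, map_sub,
      map_one] at q ⊢
    linear_combination algebraMap _ _ π ^ (k * b) * q
  · have : FiniteDimensional K M := Module.Finite.of_restrictScalars_finite ℚ K M
    rw [← Algebra.trace_trace (S := K), ← mul_assoc, show (t : M) * π ^ (k * b) =
      (t * π ^ (k * b) : 𝓞 M) by simp, z, map_zero]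

end Vale.Agent.P004C.As
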