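import Vale.Agent.P004C.As.St

/-!
# P004 C, block AS: the row INR
-/

set_option linter.all false

open NumberField Module
open scoped Classical

noncomputable section

namespace Vale.Agent.P004C.As

namespace Ir

variable {K : Type} [Field K] [NumberField K] {ι : ℂ →+* ℂ_[2]} {J : K →+* ℂ} {Ω : ℝ}
  {M : Type} [Field M] [NumberField M] [Algebra K M]

theorem n2 : ‖(2 : ℂ_[2])‖ = 1 / 2 := by
  have := (PadicComplex.norm_extends' 2 ((2 : ℕ) : ℚ_[2])).trans Padic.norm_p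
  rw [map_natCast, PadicComplex.coe_natCast] at this
  simpa using this

theorem half (w : K) : ‖ι (J (w / 2))‖ = 2 * ‖ι (J w)‖ := by
  rw [map_div₀, map_div₀, map_ofNat, map_ofNat, norm_div, n2]; ring

theorem vneg {x : M} (h : Vi ι J x) : Vi ι J (-x) := by
  simpa using Vi_mul (Vi_of ι J (-1 : 𝓞 M)) h

theorem mq {y : 𝓞 M} : y ∈ Qm ι J M 1 ↔ Vi ι J ((y : M) / 2) := by
  show Vi ι J ((y : M) / 2 ^ 1) ↔ _
  rw [pow_one]

theorem two_mq : (2 : 𝓞 M) ∈ Qm ι J M 1 := mq.2 (by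
  rw [show ((2 : 𝓞 M) : M) = 2 from rfl, div_self two_ne_zero]
  simpa using Vi_of ι J (1 : 𝓞 M))

/-- the residue field of `v` has two elements -/
theorem res (hv : VAL) (hq : VAQ) (B : Base ι J Ω) (w : K) (h : ‖ι (J w)‖ ≤ 1) :
    ∃ i : Fin 2, ‖ι (J ((w - (i : ℕ)) / 2))‖ ≤ 1 := by
  obtain ⟨v1, -, -, v4, -⟩ := (hv K ι J Ω B).2.2 K
  obtain ⟨-, -, -, q4, -⟩ := hq K ι J Ω B K
  obtain ⟨x, -, hx⟩ := v4 ⊤ w 1 ⟨1, by simp, trivial⟩ ((v1 w).2 h)
  rw [finrank_self, pow_one, Ideal.absNorm_apply, Submodule.cardQuot_apply] at q4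
  rw [pow_one] at hx
  have nt : (1 : 𝓞 K ⧸ Qm ι J K 1) ≠ 0 := by
    haveI := Nat.finite_of_card_ne_zero (q4.trans_ne two_ne_zero)
    haveI := Finite.one_lt_card_iff_nontrivial.1 (q4 ▸ one_lt_two : 1 < Nat.card (𝓞 K ⧸ Qm ι J K 1))
    exact one_ne_zero
  obtain ⟨y, -, hy⟩ := (Nat.card_eq_two_iff' (0 : 𝓞 K ⧸ Qm ι J K 1)).1 q4
  have key : ∀ i : Fin 2, x - (i : ℕ) ∈ Qm ι J K 1 → ‖ι (J ((w - (i : ℕ)) / 2))‖ ≤ 1 := fun i m => by
    have := Vi_add (mq.1 m) (vneg hx)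
    refine (v1 _).1 ?_
    convert this using 1
    simp; ring
  by_cases c : Ideal.Quotient.mk (Qm ι J K 1) x = 0
  · exact ⟨0, key 0 (by simpa using Ideal.Quotient.eq_zero_iff_mem.1 c)⟩
  · exact ⟨1, key 1 (by
      have : Ideal.Quotient.mk (Qm ι J K 1) x = Ideal.Quotient.mk (Qm ι J K 1) 1 :=
        (hy _ c).trans (hy _ nt).symm
      simpa using Ideal.Quotient.eq.1 this)⟩

variable {P : Ideal (𝓞 M)}

/-- a field with four elements -/
theorem four (hP : P.IsMaximal) (n4 : Ideal.absNorm P = 4) {a : 𝓞 M} (a0 : a ∉ P) (a1 : a - 1 ∉ P) :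
    a ^ 2 + a + 1 ∈ P ∧ ∀ x ∉ P, ∃ i : Fin 3, x - a ^ (i : ℕ) ∈ P := by
  letI := Ideal.Quotient.field P
  rw [Ideal.absNorm_apply, Submodule.cardQuot_apply] at n4
  haveI := Nat.finite_of_card_ne_zero (n4.trans_ne (by norm_num))
  letI := Fintype.ofFinite (𝓞 M ⧸ P)
  rw [Nat.card_eq_fintype_card] at n4
  have key : ∀ y : 𝓞 M ⧸ P, y ≠ 0 → (y - 1) * (y ^ 2 + y + 1) = 0 := fun y h => by
    have := FiniteField.pow_card_sub_one_eq_one y h
    rw [n4] at this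
    linear_combination this
  set f := Ideal.Quotient.mk P
  have e0 : ∀ {x}, f x = 0 ↔ x ∈ P := Ideal.Quotient.eq_zero_iff_mem
  have ha : f a ^ 2 + f a + 1 = 0 := (mul_eq_zero.1 (key _ (mt e0.1 a0))).resolve_left fun h =>
    a1 (e0.1 (by simpa using h))
  refine ⟨e0.1 (by simpa using ha), fun x hx => ?_⟩
  rcases mul_eq_zero.1 (key _ (mt e0.1 hx)) with h | h
  · exact ⟨0, e0.1 (by simpa using h)⟩
  · have : (f x - f a) * (f x - f a ^ 2) = 0 := by
      linear_combination h + (f a - 1 - f x) * ha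
    rcases mul_eq_zero.1 this with h | h
    · exact ⟨1, e0.1 (by simpa using h)⟩
    · exact ⟨2, e0.1 (by simpa using h)⟩

theorem ex_a (n4 : Ideal.absNorm P = 4) : ∃ a : 𝓞 M, a ∉ P ∧ a - 1 ∉ P := by
  rw [Ideal.absNorm_apply, Submodule.cardQuot_apply] at n4
  haveI := Nat.finite_of_card_ne_zero (n4.trans_ne (by norm_num))
  by_contra h
  push Not at h
  have : (Set.univ : Set (𝓞 M ⧸ P)) ⊆ {0, 1} := fun y _ => by
    obtain ⟨x, rfl⟩ := Ideal.Quotient.mk_surjective y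
    by_cases c : x ∈ P
    · exact .inl (Ideal.Quotient.eq_zero_iff_mem.2 c)
    · exact .inr (Ideal.Quotient.eq.2 (h x c))
  have h2 := (Set.ncard_le_ncard this).trans (Set.ncard_insert_le _ _)
  rw [Set.ncard_univ, n4, Set.ncard_singleton] at h2
  omega

/-- the basis `1, a` -/
theorem bas (hv : VAL) (hq : VAQ) (B : Base ι J Ω) (rk : finrank K M = 2) (hP : P.IsMaximal)
    (n4 : Ideal.absNorm P = 4) (e : Qm ι J M 1 = P) :
    ∃ b : Basis (Fin 2) K M, Vb ι J b ∧ dv ι J b = 1 := by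
  obtain ⟨a, a0, a1⟩ := ex_a n4
  obtain ⟨v1, v2, -⟩ := (hv K ι J Ω B).2.2 M
  set f := algebraMap K M
  have t2 : (2 : 𝓞 M) ∈ P := e ▸ two_mq
  have ez : ∀ α β : K, ‖ι (J α)‖ ≤ 1 → ‖ι (J β)‖ ≤ 1 → Vi ι J (f α + f β * a) := fun α β h k =>
    Vi_add ((v1 α).2 h) (Vi_mul ((v1 β).2 k) (Vi_of ι J a))
  have l1 : ∀ α β : K, ‖ι (J α)‖ ≤ 1 → ‖ι (J β)‖ ≤ 1 → Vi ι J ((f α + f β * a) / 2) →
      ‖ι (J (α / 2))‖ ≤ 1 ∧ ‖ι (J (β / 2))‖ ≤ 1 := fun α β h k z => by
    obtain ⟨i, hi⟩ := res hv hq B α h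
    obtain ⟨j, hj⟩ := res hv hq B β k
    have m : ((i : ℕ) + (j : ℕ) * a : 𝓞 M) ∈ P := e ▸ mq.2 (by
      convert Vi_add z (vneg (ez _ _ hi hj)) using 1
      simp [f, map_ofNat]; ring)
    fin_cases i <;> fin_cases j <;> simp at m hi hj ⊢
    · exact ⟨hi, hj⟩
    · exact absurd m a0
    · exact absurd m ((Ideal.ne_top_iff_one P).1 hP.ne_top)
    · exact absurd (by convert P.sub_mem m t2 using 1; ring) a1
  have l2 : ∀ (n : ℕ) (α β : K), ‖ι (J (2 ^ n * α))‖ ≤ 1 → ‖ι (J (2 ^ n * β))‖ ≤ 1 →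
      Vi ι J (f α + f β * a) → ‖ι (J α)‖ ≤ 1 ∧ ‖ι (J β)‖ ≤ 1 := fun n => by
    induction n with
    | zero => exact fun α β h k _ => ⟨by simpa using h, by simpa using k⟩
    | succ n ih =>
      intro α β h k z
      obtain ⟨p, q⟩ := l1 _ _ h k (by
        convert Vi_mul (Vi_of ι J (2 ^ n : 𝓞 M)) z using 1
        simp [f, map_ofNat]; ring)
      rw [pow_succ', mul_assoc, mul_div_cancel_left₀ _ two_ne_zero] at p q
      exact ih α β p q z
  have l3 : ∀ α β : K, Vi ι J (f α + f β * a) → ‖ι (J α)‖ ≤ 1 ∧ ‖ι (J β)‖ ≤ 1 := fun α β z => by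
    obtain ⟨n, hn⟩ := pow_unbounded_of_one_lt (max ‖ι (J α)‖ ‖ι (J β)‖) (one_lt_two (α := ℝ))
    have : ∀ γ : K, ‖ι (J γ)‖ < 2 ^ n → ‖ι (J (2 ^ n * γ))‖ ≤ 1 := fun γ h => by
      rw [map_mul, map_mul, map_pow, map_pow, map_ofNat, map_ofNat, norm_mul, norm_pow, n2, one_div,
        inv_pow, inv_mul_le_iff₀ (by positivity), mul_one]
      exact h.le
    exact l2 n α β (this α ((le_max_left _ _).trans_lt hn)) (this β ((le_max_right _ _).trans_lt hn)) z
  have li : LinearIndependent K ![(1 : M), a] := LinearIndependent.pair_iff.2 fun s t h => by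
    have k : ∀ γ : K, ‖ι (J (γ * s))‖ ≤ 1 ∧ ‖ι (J (γ * t))‖ ≤ 1 := fun γ => l3 _ _ (by
      convert Vi_of ι J (0 : 𝓞 M) using 1
      rw [Algebra.smul_def, Algebra.smul_def] at h
      simp only [f, map_mul, map_zero]
      push_cast
      linear_combination algebraMap K M γ * h)
    have z : ∀ s : K, (∀ γ : K, ‖ι (J (γ * s))‖ ≤ 1) → s = 0 := fun s h => by
      by_contra c
      have := h (s⁻¹ / 2)
      rw [div_mul_eq_mul_div, inv_mul_cancel₀ c, half] at this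
      norm_num at this
    exact ⟨z s fun γ => (k γ).1, z t fun γ => (k γ).2⟩
  let b := basisOfLinearIndependentOfCardEqFinrank li (by simp [rk])
  have b0 : b 0 = 1 := by simp [b]
  have b1 : b 1 = a := by simp [b]
  have rp : ∀ x : M, x = f (b.repr x 0) + f (b.repr x 1) * a := fun x => by
    conv_lhs => rw [← b.sum_repr x]
    simp [Fin.sum_univ_two, b0, b1, Algebra.smul_def, f]
  have vb : Vb ι J b := fun x => ⟨fun h => Fin.forall_fin_two.2 (l3 _ _ (rp x ▸ h)),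
    fun h => rp x ▸ ez _ _ (h 0) (h 1)⟩
  refine ⟨b, vb, ?_⟩
  have ta : Algebra.trace K M a = b.repr (a * a) 1 := by
    rw [Algebra.trace_eq_matrix_trace b, Matrix.trace_fin_two, Algebra.leftMulMatrix_eq_repr_mul,
      Algebra.leftMulMatrix_eq_repr_mul, b0, b1, mul_one, ← b1]
    simp
  have va := (vb (a * a)).1 (Vi_mul (Vi_of ι J a) (Vi_of ι J a))
  have ul : ∀ γ : K, ‖ι (J γ)‖ ≤ 1 → ‖ι (J (γ + 1))‖ ≤ 1 := fun γ h => by
    rw [map_add, map_add]
    exact (IsUltrametricDist.norm_add_le_max _ _).trans (max_le h (by simp))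
  have h1 := (l1 _ _ (ul _ (va 0)) (ul _ (va 1)) (by
    convert mq.1 (e ▸ (four hP n4 a0 a1).1 : a ^ 2 + a + 1 ∈ Qm ι J M 1) using 2
    have := rp (a * a)
    simp only [f, map_add, map_one] at this ⊢
    push_cast
    linear_combination -this)).2
  rw [half, ← ta, map_add, map_add, map_one, map_one] at h1
  have h2 : ‖ι (J (Algebra.trace K M a))‖ = 1 := by
    have := IsUltrametricDist.norm_add_eq_max_of_norm_ne_norm
      (x := ι (J (Algebra.trace K M a)) + 1) (y := -1) (by rw [norm_neg, norm_one]; linarith)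
    rw [add_neg_cancel_right, norm_neg, norm_one] at this
    exact this.trans (max_eq_right (by linarith))
  have h3 := (v2 _ (Vi_mul (Vi_of ι J a) (Vi_of ι J a))).1
  have t1 : Algebra.trace K M 1 = 2 := by
    simpa [rk] using Algebra.trace_algebraMap (S := M) (1 : K)
  rw [dv, Algebra.discr_def, Matrix.det_fin_two]
  simp only [Algebra.traceMatrix_apply, Algebra.traceForm_apply, b0, b1, mul_one, one_mul, t1,
    map_sub, map_mul, map_ofNat]
  rw [sub_eq_add_neg, IsUltrametricDist.norm_add_eq_max_of_norm_ne_norm] <;>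
    rw [norm_neg, norm_mul, norm_mul, h2, n2]
  · exact (max_eq_right (by linarith)).trans (mul_one _)
  · linarith

end Ir

open Ir in
/-- **row INR** -/
theorem inr (hl : VAL) (hq : VAQ) : INR := by
  intro K _ _ ι J Ω B M _ _ _ rk P hA n4
  obtain ⟨v1, v2, -⟩ := (hl K ι J Ω B).2.2 M
  obtain ⟨q1, q2, -, q4, q5⟩ := hq K ι J Ω B M
  obtain ⟨hP, le⟩ := (q2 P).1 ((hA P).2 rfl)
  have e : Qm ι J M 1 = P := by
    obtain ⟨C, hC⟩ := Ideal.dvd_iff_le.2 le
    rw [hC, map_mul, n4, rk] at q4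
    rw [hC, Ideal.absNorm_eq_one_iff.1 (by omega : Ideal.absNorm C = 1), Ideal.mul_top]
  have t2 : (2 : 𝓞 M) ∈ P := e ▸ two_mq
  have dvd : ∀ ϖ : 𝓞 M, ϖ ∈ P → ϖ ∉ P ^ 2 → ∀ y ∈ P, Vi ι J ((ϖ : M)⁻¹ * y) := fun ϖ m n => by
    obtain ⟨C, hC⟩ := Ideal.dvd_span_singleton.2 m
    refine q5 _ C P ((q1 C).2 ?_) fun y hy => ?_
    · rw [e]
      by_contra c
      have : C ≤ P := le_sup_left.trans_eq (hP.eq_of_le c le_sup_right).symm
      exact n (Ideal.span_singleton_le_iff_mem _ |>.1 (hC ▸ sq P ▸ Ideal.mul_mono_right this))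
    · rw [mul_comm, ← hC, Ideal.mem_span_singleton] at hy
      obtain ⟨w, rfl⟩ := hy
      have : (ϖ : M) ≠ 0 := fun c => n (by rw [show ϖ = 0 from RingOfIntegers.ext c]; exact zero_mem _)
      simpa [this] using Vi_of ι J w
  have nm : ∀ ϖ : 𝓞 M, ϖ ∈ P → ϖ ∉ P ^ 2 → ‖ι (J (Algebra.norm K (ϖ : M)))‖ = 1 / 4 := fun ϖ m n => by
    have p0 : (ϖ : M) ≠ 0 := fun c => n (by rw [show ϖ = 0 from RingOfIntegers.ext c]; exact zero_mem _)
    have h1 := (v2 _ (dvd ϖ m n 2 t2)).2.1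
    have h2 := (v2 _ (mq.1 (e ▸ m))).2.1
    have h4 : ‖ι (J (Algebra.norm K (2 : M)))‖ = 1 / 4 := by
      rw [show (2 : M) = algebraMap K M 2 from (map_ofNat _ 2).symm, Algebra.norm_algebraMap, rk,
        map_pow, map_pow, map_ofNat, map_ofNat, norm_pow, n2]; norm_num
    have h5 : ((2 : 𝓞 M) : M) = 2 := rfl
    have h0 : 0 < ‖ι (J (Algebra.norm K (ϖ : M)))‖ := by
      simpa using p0
    rw [h5, map_mul, Algebra.norm_inv, map_mul, map_mul, norm_mul, h4, map_inv₀, map_inv₀, norm_inv,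
      inv_mul_le_iff₀ h0] at h1
    rw [div_eq_mul_inv, map_mul, Algebra.norm_inv, map_mul, map_mul, norm_mul, map_inv₀, map_inv₀,
      norm_inv, h4] at h2
    linarith
  refine ⟨e, bas hl hq B rk hP n4 e, nm, fun ψ hψ y₀ hy ϖ m n ω w1 wm wc ⟨a, a0, wa⟩ => ?_⟩
  have p0 : (ϖ : M) ≠ 0 := fun c => n (by rw [show ϖ = 0 from RingOfIntegers.ext c]; exact zero_mem _)
  have o1 : (1 : 𝓞 M) ∉ P := (Ideal.ne_top_iff_one P).1 hP.ne_top
  have a1 : a - 1 ∉ P := fun c => wa ((wc a 1 a0 c).trans w1)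
  obtain ⟨f1, f2⟩ := four hP n4 a0 a1
  have ap : ∀ i : ℕ, a ^ i ∉ P := fun i c => a0 (hP.isPrime.mem_of_pow_mem i c)
  have wp : ∀ i : ℕ, ω (a ^ i) = ω a ^ i := fun i => by
    induction i with
    | zero => simpa using w1
    | succ i ih => rw [pow_succ, wm _ _ (ap i) a0, ih, pow_succ]
  have a3 : a ^ 3 - 1 ∈ P := by convert P.mul_mem_left (a - 1) f1 using 1; ring
  have z3 : ω a ^ 3 = 1 := by rw [← wp, wc _ 1 (ap 3) a3, w1]
  set ζ := ω a
  have z2 : ζ ^ 2 + ζ + 1 = 0 := mul_left_cancel₀ (sub_ne_zero.2 wa) (by linear_combination z3)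
  have zi : ζ⁻¹ = ζ ^ 2 := inv_eq_of_mul_eq_one_right (by linear_combination z3)
  have tv : ∀ x : M, Vi ι J x → ψ (-Algebra.trace K M (y₀ * x)) = 1 := fun x h => (hψ _).2 (by
    simpa using (hy x).2 h 1)
  let ε : 𝓞 M → ℂ := fun y => ψ (-Algebra.trace K M (y₀ * ((ϖ : M)⁻¹ * y)))
  have ea : ∀ x y, ε (x + y) = ε x * ε y := fun x y => by
    simp only [ε, ← AddChar.map_add_eq_mul]
    congr 1
    push_cast
    rw [mul_add, mul_add, map_add, neg_add]
  have e0 : ∀ y ∈ P, ε y = 1 := fun y h => tv _ (dvd ϖ m n y h)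
  have ec : ∀ x y, x - y ∈ P → ε x = ε y := fun x y h => by
    rw [← sub_add_cancel x y, ea, e0 _ h, one_mul]
  have e2 : ∀ y, ε y = 1 ∨ ε y = -1 := fun y => mul_self_eq_one_iff.1 (by
    rw [← ea, e0 _ (by rw [← two_mul]; exact P.mul_mem_right _ t2)])
  have e3 : ε (a ^ 2) * ε a * ε 1 = 1 := by rw [← ea, ← ea, e0 _ f1]
  have en : ¬ (ε 1 = 1 ∧ ε a = 1 ∧ ε (a ^ 2) = 1) := fun ⟨h0, h1, h2⟩ => by
    have all : ∀ y, ε y = 1 := fun y => by
      by_cases c : y ∈ P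
      · exact e0 y c
      · obtain ⟨i, hi⟩ := f2 y c
        rw [ec _ _ hi]
        fin_cases i <;> simpa
    have := (v2 _ ((hy (ϖ : M)⁻¹).1 fun r => by
      have := (hψ _).1 (all r)
      rw [map_neg, map_neg, norm_neg] at this
      rw [pow_zero, show (r : M) * (y₀ * (ϖ : M)⁻¹) = y₀ * ((ϖ : M)⁻¹ * r) by ring]
      exact this)).2.1
    rw [Algebra.norm_inv, map_inv₀, map_inv₀, norm_inv, nm ϖ m n] at this
    norm_num at this
  refine ⟨(ε 1 + ζ ^ 2 * ε a + ζ * ε (a ^ 2)) / 4, fun i => a ^ (i : ℕ), ?_, fun i => ap i,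
    fun x c => ?_, fun x x' h => ?_⟩
  · have g3 : (ε 1 + ζ ^ 2 * ε a + ζ * ε (a ^ 2)) ^ 3 = 2 ^ 3 := by
      rcases e2 1 with p | p <;> rcases e2 a with q | q <;> rcases e2 (a ^ 2) with r | r <;>
        rw [p, q, r] at e3 ⊢ <;> first
          | (exfalso; norm_num at e3; done)
          | skip
      · exact absurd ⟨p, q, r⟩ en
      · rw [show (1 + ζ ^ 2 * -1 + ζ * -1 : ℂ) = 2 by linear_combination -z2]
      · rw [show (-1 + ζ ^ 2 * 1 + ζ * -1 : ℂ) = 2 * ζ ^ 2 by linear_combination -z2]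
        linear_combination 8 * (ζ ^ 3 + 1) * z3
      · rw [show (-1 + ζ ^ 2 * -1 + ζ * 1 : ℂ) = 2 * ζ by linear_combination -z2]
        linear_combination 8 * z3
    have := congrArg (fun t => ‖ι t‖) g3
    simp only [map_pow, norm_pow, map_ofNat] at this
    rw [map_div₀, norm_div, (pow_left_inj₀ (norm_nonneg _) (norm_nonneg _) three_ne_zero).1 this,
      show (4 : ℂ) = 2 ^ 2 by norm_num, map_pow, map_ofNat, norm_pow, n2]
    norm_num
  · obtain ⟨i, hi⟩ := f2 x c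
    rw [wc _ _ c hi, wp, ← pow_mul, mul_comm, pow_mul, z3, one_pow]
  · have d2 := dvd ϖ m n 2 t2
    have h5 : ((2 : 𝓞 M) : M) = 2 := rfl
    rw [h5] at d2
    have hx : Vi ι J (2 ^ 1 * x) := by
      convert Vi_mul d2 (Vi_add (Vi_mul (Vi_of ι J (2 : 𝓞 M)) h) (Vi_of ι J x')) using 1
      rw [h5]; field_simp; ring
    have ev : ∀ r : 𝓞 M, ψ (-Algebra.trace K M (x * (y₀ * r))) = ε (r * x') := fun r => by
      rw [← mul_one (ε _), ← tv _ (Vi_mul (Vi_mul d2 h) (Vi_of ι J r)), ← AddChar.map_add_eq_mul,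
        ← neg_add, ← map_add]
      congr 3
      push_cast
      field_simp; ring
    rw [hv, if_pos hx, Fin.sum_univ_three]
    simp only [ev, wp, ← inv_pow, zi]
    simp only [Fin.val_zero, Fin.val_one, Fin.val_two, pow_zero, pow_one]
    split_ifs with c
    · rw [e0 _ (P.mul_mem_left _ c), e0 _ (P.mul_mem_left _ c), e0 _ (P.mul_mem_left _ c)]
      linear_combination (1 / 4 : ℂ) * z2 + ζ / 4 * z3
    · obtain ⟨i, hi⟩ := f2 x' c
      have ei : ∀ r, ε (r * x') = ε (r * a ^ (i : ℕ)) := fun r =>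
        ec _ _ (by rw [← mul_sub]; exact P.mul_mem_left _ hi)
      have c3 : ε (a ^ 3) = ε 1 := ec _ _ a3
      have c4 : ε (a ^ 4) = ε a := ec _ _ (by convert P.mul_mem_left a a3 using 1; ring)
      rw [ei, ei, ei, wc _ _ c hi, wp]
      fin_cases i
      · simp only [Fin.zero_eta, Fin.val_zero, pow_zero, mul_one]
        linear_combination ζ / 4 * ε (a ^ 2) * z3
      · simp only [Fin.mk_one, Fin.val_one, pow_one, one_mul, ← sq, ← pow_succ, c3]
        linear_combination (ζ / 4 * ε 1 - ε a / 4) * z3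
      · simp only [Fin.reduceFinMk, Fin.val_two, one_mul, ← pow_succ', ← pow_add, c3, c4]
        linear_combination (- ε (a ^ 2) / 4) * z3

end Vale.Agent.P004C.As
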