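import Vale.Agent.P004C.As.Sm
import Vale.Agent.P004C.As.Vaq

/-!
# P004 C, block AS: the smoothed partial sums are bounded (row BND)
-/

set_option linter.unusedSectionVars false

open NumberField Module
open scoped Classical

noncomputable section

namespace Vale.Agent.P004C.As

open Al.Gx

namespace Bd

theorem nat_nm {i : ℕ} (h : 0 < i) : 1 ≤ i * ‖(i : ℂ_[2])‖ := by
  obtain ⟨v, o, t, e⟩ := Nat.exists_eq_two_pow_mul_odd h.ne'
  rw [e, Nat.cast_mul (2 ^ v), Nat.cast_mul (2 ^ v), norm_mul, n_odd t, Nat.cast_pow, Nat.cast_pow,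
    norm_pow, Nat.cast_ofNat, Nat.cast_ofNat, nm_two, mul_one, mul_right_comm, ← mul_pow]
  simpa using Nat.succ_le_of_lt t.pos

variable {K : Type} [Field K] [NumberField K] {ι : ℂ →+* ℂ_[2]} {J : K →+* ℂ}
  {M : Type} [Field M] [NumberField M] [Algebra K M]

theorem pv_ne {f : Ideal (𝓞 M)} (h : Pv ι J f) : f ≠ ⊥ := by
  rintro rfl
  obtain ⟨s, a, b⟩ := h
  exact ne_of (M := M) a (congrArg (fun z : 𝓞 M => (z : M)) ((Submodule.mem_bot _).1 b))

theorem vi_unit (u : (𝓞 M)ˣ) (x : M) : Vi ι J (((u : 𝓞 M) : M) * x) ↔ Vi ι J x := by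
  refine ⟨fun h => ?_, Vi_mul (Vi_of ι J _)⟩
  have e : (((u⁻¹ : (𝓞 M)ˣ) : 𝓞 M) : M) * ((u : 𝓞 M) : M) = 1 :=
    congrArg (fun z : 𝓞 M => (z : M)) u.inv_mul
  have := Vi_mul (Vi_of ι J ((u⁻¹ : (𝓞 M)ˣ) : 𝓞 M)) h
  rwa [← mul_assoc, e, one_mul] at this

theorem hv0 (ψ : AddChar K ℂ) (n : ℕ) (x : M) :
    hv ι J ψ 0 n (fun _ : Unit => (0 : M)) (fun _ => 1) x = if Vi ι J x then 1 else 0 := by
  simp [hv]

theorem e_top {f I : Ideal (𝓞 M)} {x : M} (h : E f x I ⊤) : Vi ι J x := by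
  obtain ⟨y, z, -, -, -, z0, e, k⟩ := h
  have : y ∈ Ideal.span {z} := Ideal.mul_le_left (I := Ideal.span {z}) (J := I)
    (by rw [k, Ideal.mul_top]; exact Ideal.mem_span_singleton_self y)
  obtain ⟨t, rfl⟩ := Ideal.mem_span_singleton'.1 this
  have z1 : (z : M) ≠ 0 := RingOfIntegers.coe_ne_zero_iff.2 z0
  have : x = t := mul_right_cancel₀ z1 e
  exact this ▸ Vi_of ι J t

theorem one_mul' {f : Ideal (𝓞 M)} {y z : 𝓞 M} (a : y - 1 ∈ f) (b : z - 1 ∈ f) :
    y * z - 1 ∈ f := by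
  have : y * z - 1 = y * (z - 1) + (y - 1) := by ring
  exact this ▸ add_mem (f.mul_mem_left _ b) a

theorem ry_eq {R : Type} {f I I' B Q : Ideal (𝓞 M)} {u : Ideal (𝓞 M) → R} (hu : Ry f u)
    (hB : B ≠ ⊥) {x x' : M} (h : E f x (I * B) Q) (h' : E f x' (I' * B) Q) : u I = u I' := by
  obtain ⟨y, z, a1, a2, a3, a4, -, k⟩ := h
  obtain ⟨y', z', b1, b2, b3, b4, -, k'⟩ := h'
  have e : Ideal.span {z * y'} * I = Ideal.span {z' * y} * I' := by
    refine mul_right_cancel₀ hB ?_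
    rw [← Ideal.span_singleton_mul_span_singleton, ← Ideal.span_singleton_mul_span_singleton]
    calc _ = Ideal.span {y'} * (Ideal.span {z} * (I * B)) := by ring
      _ = Ideal.span {y} * (Ideal.span {z'} * (I' * B)) := by rw [k, k']; ring
      _ = _ := by ring
  rw [← hu I _ (mul_ne_zero a4 b3) (one_mul' a2 b1), e, hu I' _ (mul_ne_zero b4 a3) (one_mul' b2 a1)]

theorem hc_ne {k : ℕ} {f I : Ideal (𝓞 M)} {a : Ideal (𝓞 M) → ℂ} (h : HC J k f a) :
    a I ≠ 0 ↔ Cp f I := by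
  rw [Ne, h.zero, not_or, not_not, Cp]

end Bd

open Bd in
theorem bnd (hI : IDL) (hD : DUA) (hH : HCN) (hV : VAL) (_ : VAQ) : BND := by
  intro K _ _ ι J Ω hB M _ _ _ n b hb c l hc
  refine ⟨2 * Units.torsionOrder M, fun k f a u hk hf hl hw ha hu u1 => ?_⟩
  obtain ⟨Ωp, ψ, hΩ, -, H⟩ := hI K ι J Ω hB
  obtain ⟨i, β, _, B, j, x, i0, i1, -, hBj, hE, H⟩ := H M n b hb c l hc f hf hl hw 0
  rw [Vq.qm_zero] at hE
  obtain ⟨Z, Z1, Z2⟩ := H Unit (fun _ => 0) (fun _ => 1) (fun _ r => by simp) (fun _ => by simp)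
    fun u _ x => by rw [hv0, hv0, vi_unit]
  obtain ⟨h1, h2, h3, -⟩ := hH K ι J Ω hB M k f a (pv_ne hf) ha
  obtain ⟨y₀, y0, y1, y2⟩ := hD K ι J Ω hB M n b hb
  obtain ⟨-, -, hV⟩ := hV K ι J Ω hB
  obtain ⟨-, v2, -⟩ := hV M
  set d := dv ι J b with hd
  have d0 : 0 < d := lt_of_le_of_ne (norm_nonneg _) fun e => by simp [← e] at y2
  let u' : β → ℂ := fun t => if h : ∃ I, Cp f I ∧ j I = t then u h.choose else 0
  have u2 : ∀ I, Cp f I → u' (j I) = u I := fun I h => by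
    have k : ∃ I', Cp f I' ∧ j I' = j I := ⟨I, h, rfl⟩
    have k1 := hE _ k.choose_spec.1
    rw [k.choose_spec.2] at k1
    exact (dif_pos k).trans (ry_eq hu (hBj _).1.1 k1 (hE I h))
  let w : β → ℂ := fun t => (a (B t))⁻¹ * u' t
  have w1 : ∀ t, ‖ι (w t)‖ ≤ 1 := fun t => by
    rw [map_mul, map_inv₀, norm_mul, norm_inv, h3 _ (hBj t).1 (pv_two (hBj t).2), inv_one, one_mul]
    unfold u'
    split_ifs
    · exact u1 _
    · simp
  have k0 : 0 < k := by omega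
  have l2 : 2 ≤ l := hc.1.two_le
  have c0 : c ≠ ⊥ := by
    rintro rfl
    have := hc.2.2.1
    simp at this
    omega
  have S := (Z1 k w k0).2 h1 0 (by
    have : (3 : ℝ) ≤ k := by exact_mod_cast hk
    simp only [Complex.zero_re]
    linarith)
  have S' : HasSum (fun I => (i : ℂ) * (xi c l I * (a I * u I))) (Z k w 0) := by
    refine S.congr_fun (fun I => ?_) |>.trans le_rfl
    by_cases h : Cp f I
    · have e := h2 _ _ _ (hE I h)
      rw [ha.mul, ← Ideal.one_eq_top, ha.one] at e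
      have n := (hc_ne ha).2 (hBj (j I)).1
      rw [if_pos h, hv0, if_pos (e_top (hE I h)), neg_zero, Complex.cpow_zero, mul_one, mul_one,
        div_eq_mul_one_div, ← e]
      simp only [w, u2 I h]
      field_simp
    · rw [if_neg h, not_not.1 (mt (hc_ne ha).1 h)]
      simp
  have i2 : (i : ℂ) ≠ 0 := Nat.cast_ne_zero.2 i0.ne'
  have s0 := summ_xi l2 ((summable_mul_left_iff i2).1 S'.summable)
  obtain ⟨s1, s2⟩ := smooth' (l := l) c0 _ s0
  have T : Z k w 0 = i * ∑' I, a I * (u I - l * a c * u (c * I)) := by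
    rw [← S'.tsum_eq, tsum_mul_left, s2, ← tsum_mul_left, ← s0.tsum_sub (s1.mul_left _)]
    refine congrArg _ (tsum_congr fun I => ?_)
    rw [ha.mul]
    ring
  have N : Nr ι J 0 k k (fun _ : Unit => (0 : M)) 0 (d⁻¹ ^ (k - 1)) := fun _ y' h => by
    have e : y' = y₀ * (y' / y₀) := by field_simp
    have v := (v2 _ ((y1 0 (y' / y₀)).1 (by
      rwa [pow_zero, one_mul, ← e, ← sub_zero y']))).2.1
    rw [zero_mul, sub_zero, norm_pow]
    refine pow_le_pow_left₀ (norm_nonneg _) ?_ _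
    rw [e, map_mul, map_mul, map_mul, norm_mul, eq_inv_of_mul_eq_one_left y2]
    exact mul_le_of_le_one_right (inv_nonneg.2 d0.le) v
  have δ0 : 0 ≤ d⁻¹ ^ (k - 1) := by positivity
  have R := Z2 k k w w 0 _ _ k0 k0 δ0 δ0 w1 (fun _ => by simpa using δ0) N N
  rw [zero_mul, sub_zero, nv_norm, hΩ, T, map_mul, map_natCast, norm_mul] at R
  have q : 0 < √d := Real.sqrt_pos.2 d0
  have g : d ^ k / √d * (d⁻¹ ^ (k - 1) / √d) = 1 := by
    obtain ⟨k, rfl⟩ : ∃ t, k = t + 1 := ⟨k - 1, by omega⟩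
    rw [div_mul_div_comm, Real.mul_self_sqrt d0.le, Nat.add_sub_cancel, inv_pow, pow_succ]
    field_simp
  have R' := mul_le_mul_of_nonneg_left R (show 0 ≤ d ^ k / √d by positivity)
  rw [g] at R'
  have i3 : (i : ℝ) ≤ 2 * Units.torsionOrder M := by exact_mod_cast i1
  have p := nat_nm i0
  rw [sc]
  generalize ‖ι (∑' I, a I * (u I - l * a c * u (c * I)))‖ = X at R' ⊢
  generalize (‖((k - 1).factorial : ℂ_[2])‖ / Ω ^ k) ^ n = A at R' ⊢
  generalize d ^ k / √d = D at R' ⊢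
  have i4 : (0 : ℝ) ≤ i := Nat.cast_nonneg i
  by_cases P : A * D * X ≤ 0
  · exact P.trans (i4.trans i3)
  · have := mul_le_mul_of_nonneg_left R' i4
    have := mul_le_mul_of_nonneg_left p (not_le.1 P).le
    nlinarith

end Vale.Agent.P004C.As
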