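import Vale.Agent.P004C.As.CrA

/-!
# P004 C, block AS: the congruence when `v` is inert
-/

set_option linter.unusedSectionVars false

open NumberField Module
open scoped Classical

noncomputable section

namespace Vale.Agent.P004C.As.Cr

variable {K : Type} [Field K] [NumberField K] {ι : ℂ →+* ℂ_[2]} {J : K →+* ℂ}
  {M : Type} [Field M] [NumberField M] [Algebra K M]
  {k : ℕ} {f P : Ideal (𝓞 M)} {a a₁ a₂ : Ideal (𝓞 M) → ℂ}

theorem unit_norm {Ω : ℝ} (hB : Base ι J Ω) (h : HC J 1 (f * P) a) (hf : f ⊔ P = ⊤)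
    (hP : P.IsMaximal) (h4 : Ideal.absNorm P = 4) (u : (𝓞 M)ˣ) (hu : (u : 𝓞 M) - 1 ∈ f) :
    Algebra.norm K ((u : 𝓞 M) : M) = 1 := by
  obtain ⟨t, ht⟩ := norm_int (K := K) (u : 𝓞 M)
  obtain ⟨t', ht'⟩ := norm_int (K := K) ((u⁻¹ : (𝓞 M)ˣ) : 𝓞 M)
  have e : t * t' = 1 := by
    apply Subtype.ext
    show (t : K) * t' = 1
    rw [ht, ht', ← map_mul]
    have : ((u : 𝓞 M) : M) * ((u⁻¹ : (𝓞 M)ˣ) : 𝓞 M) = 1 := by exact_mod_cast u.mul_inv
    rw [this, map_one]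
  have c := W_cube h hf hP h4 hu fun m => hP.ne_top (P.eq_top_of_isUnit_mem m u.isUnit)
  unfold W at c
  rw [Ideal.span_singleton_eq_top.2 u.isUnit, ← Ideal.one_eq_top, h.one, ← ht] at c
  rcases hB.upm (Units.mkOfMulEqOne t t' e) with r | r
  · have : t = 1 := congrArg Units.val r
    rw [← ht, this]
    rfl
  · have : t = -1 := congrArg Units.val r
    rw [this] at c
    norm_num at c

theorem W_eq (val : VAL) (vaq : VAQ) {Ω δ : ℝ} (hB : Base ι J Ω) (h₁ : HC J 1 (f * P) a₁)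
    (h₂ : HC J k (f * P) a₂) (hk : 0 < k) (hf : f ⊔ P = ⊤) (hP : P.IsMaximal)
    (h4 : Ideal.absNorm P = 4) (hQ : Qm ι J M 1 = P)
    (hδ : ∀ I, Pv ι J I → ‖ι (a₁ I - a₂ I)‖ ≤ δ) (d1 : δ < 1) {y : 𝓞 M} (y1 : y - 1 ∈ f)
    (y2 : y ∉ P) : W J 1 a₁ y = W J k a₂ y ∧
      ‖ι (J (Algebra.norm K (y : M))) ^ (k - 1) - ι (J (Algebra.norm K (y : M))) ^ 0‖ ≤ δ := by
  have pv : Pv ι J (Ideal.span {y}) := by
    rw [(vaq K ι J Ω hB M).1, hQ]
    by_contra ne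
    exact y2 ((Ideal.span_singleton_le_iff_mem _).1
      (le_sup_left.trans (hP.eq_of_le ne le_sup_right).ge))
  have n1 := (((val K ι J Ω hB).2.2 M).2.2.2.2 y).1 pv
  have c1 := W_cube h₁ hf hP h4 y1 y2
  have c2 := W_cube h₂ hf hP h4 y1 y2
  have n2 : ‖ι (a₂ (Ideal.span {y}))‖ = 1 := by
    have := root_norm (ι := ι) c2
    unfold W at this
    simpa [n1] using this
  obtain ⟨t, ht⟩ := norm_int (K := K) y
  have r := res_two val vaq hB t (by rw [ht, n1])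
  rw [ht] at r
  have d := hδ _ pv
  have e : W J 1 a₁ y = W J k a₂ y := by
    refine root_eq (ι := ι) c1 c2 ?_
    unfold W
    simp only [map_sub, map_mul, map_pow, pow_one] at d ⊢
    set N := ι (J (Algebra.norm K (y : M)))
    set A := ι (a₁ (Ideal.span {y}))
    set B := ι (a₂ (Ideal.span {y}))
    have : A * N - B * N ^ k = (A - B) * N + B * ((N - 1) + -(N ^ k - 1 ^ k)) := by ring
    rw [this]
    refine (IsUltrametricDist.norm_add_le_max _ _).trans_lt (max_lt ?_ ?_)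
    · rw [norm_mul, n1]
      linarith
    · rw [norm_mul, n2, one_mul]
      refine (IsUltrametricDist.norm_add_le_max _ _).trans_lt (max_lt r ?_)
      rw [norm_neg]
      exact (n_pow_sub n1.le norm_one.le k).trans_lt r
  refine ⟨e, ?_⟩
  have n0 : J (Algebra.norm K (y : M)) ≠ 0 := fun z => by simp [z] at n1
  obtain ⟨k, rfl⟩ := Nat.exists_eq_succ_of_ne_zero hk.ne'
  have e' : a₁ (Ideal.span {y}) = a₂ (Ideal.span {y}) * J (Algebra.norm K (y : M)) ^ k := by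
    apply mul_right_cancel₀ n0
    unfold W at e
    rw [pow_one, pow_succ] at e
    rw [e]
    ring
  rw [e', ← mul_sub_one, map_mul, norm_mul, n2, one_mul] at d
  simpa using d

theorem lift {I B q : Ideal (𝓞 M)} {x : M} {ϖ : 𝓞 M} (h : E f x (I * B) P)
    (e : Ideal.span {ϖ} = P * q) (h1 : ϖ - 1 ∈ f) :
    x ≠ 0 ∧ ∃ x' : 𝓞 M, (x' : M) = ϖ * x ∧ x' - 1 ∈ f ∧ Ideal.span {x'} = I * B * q := by
  obtain ⟨y, z, y1, z1, y0, z0, e1, e2⟩ := h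
  have z0' : (z : M) ≠ 0 := by exact_mod_cast z0
  have e3 : Ideal.span {z} * (I * B * q) = Ideal.span {y * ϖ} := by
    rw [← mul_assoc, e2, mul_assoc, ← e, Ideal.span_singleton_mul_span_singleton]
  obtain ⟨x', hx⟩ : z ∣ y * ϖ := by
    rw [← Ideal.mem_span_singleton, ← Ideal.span_singleton_le_iff_mem, ← e3]
    exact Ideal.mul_le_left
  refine ⟨?_, x', ?_, ?_, ?_⟩
  · rintro rfl
    exact y0 (by exact_mod_cast (e1.symm.trans (zero_mul _)))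
  · apply mul_left_cancel₀ z0'
    have : (y : M) * ϖ = z * x' := by exact_mod_cast hx
    rw [← this, ← e1]
    ring
  · have : x' - 1 = y * ϖ - 1 - (z - 1) * x' := by rw [hx]; ring
    rw [this]
    exact f.sub_mem (one_mul_mem y1 h1) (f.mul_mem_right _ z1)
  · rw [hx, ← Ideal.span_singleton_mul_span_singleton] at e3
    exact (mul_left_cancel₀ (by simpa using z0) e3).symm

theorem term (h : HC J k (f * P) a) {I B q : Ideal (𝓞 M)} {x : M} {ϖ x' : 𝓞 M} (x0 : x ≠ 0)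
    (e1 : (x' : M) = ϖ * x) (e2 : Ideal.span {x'} = I * B * q) (hB : a B ≠ 0) (ξ τ n : ℂ) :
    ((1 : ℕ) : ℂ) * ((a B)⁻¹ * ξ * (τ * W J k a x') / J (Algebra.norm K x) ^ k * n) =
      τ * a q * J (Algebra.norm K (ϖ : M)) ^ k * (ξ * (a I * n)) := by
  have := nne (K := K) (J := J) x0
  unfold W
  rw [e1, e2, h.mul, h.mul, map_mul, map_mul, mul_pow]
  field_simp
  simp

theorem nz {I : Ideal (𝓞 M)} (h1 : Cp f I) (h2 : I ⊔ P = ⊤) :
    Cp (f * P) I := ⟨h1.1, by rw [Ideal.sup_mul_eq_of_coprime_left h1.2, h2]⟩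

theorem hs_congr {α : Type} {F G : α → ℂ} {Z : ℂ} (h : HasSum F Z) (e : ∀ I, F I = G I) :
    HasSum G Z := funext e ▸ h

theorem val_Z (h : HC J k (f * P) a) (hP : P.IsMaximal) {β : Type} {B : β → Ideal (𝓞 M)}
    {j : Ideal (𝓞 M) → β} {x : Ideal (𝓞 M) → M} {q c : Ideal (𝓞 M)} {ϖ : 𝓞 M} {l : ℕ}
    (hc : Sm c l) (hB : ∀ j, a (B j) ≠ 0) (hE : ∀ I, Cp f I → E f (x I) (I * B (j I)) P)
    (e : Ideal.span {ϖ} = P * q) (h1 : ϖ - 1 ∈ f) {H : M → ℂ} {τ : ℂ} {ω : 𝓞 M → ℂ}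
    (hH : ∀ (x : M) (x' : 𝓞 M), Vi ι J ((ϖ * x - x') / 2) → H x = if x' ∈ P then 0 else τ * ω x')
    (hω : ∀ y, y - 1 ∈ f → y ∉ P → ω y = W J k a y)
    (hC : τ * a q * J (Algebra.norm K (ϖ : M)) ^ k ≠ 0) {s Z : ℂ}
    (hZ : HasSum (fun I => if Cp f I then ((1 : ℕ) : ℂ) * ((a (B (j I)))⁻¹ * xi c l I * H (x I) /
      J (Algebra.norm K (x I)) ^ k * (Ideal.absNorm I : ℂ) ^ (-s)) else 0) Z) :
    Z = τ * a q * J (Algebra.norm K (ϖ : M)) ^ k * (1 - l * a c * (l : ℂ) ^ (-s)) *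
      ∑' I, a I * (Ideal.absNorm I : ℂ) ^ (-s) := by
  refine (smooth hc.1.two_le hc.2.2.1 h.mul hC ?_).2
  refine hs_congr hZ fun I => ?_
  split_ifs with hI
  · obtain ⟨x0, x', e1, e2, e3⟩ := lift (hE I hI) e h1
    have : H (x I) = τ * W J k a x' := by
      rw [hH (x I) x' (by simpa [e1] using Vi_of ι J (0 : 𝓞 M))]
      split_ifs with m
      · rw [W_zero h hP m, mul_zero]
      · rw [hω x' e2 m]
    rw [this]
    exact term h x0 e1 e3 (hB _) _ _ _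
  · rw [(h.zero I).2 ?_, zero_mul, mul_zero, mul_zero]
    by_contra ne
    push Not at ne
    exact hI ⟨ne.1, top_le_iff.1 (ne.2 ▸ sup_le_sup_left Ideal.mul_le_left _)⟩

theorem ex_om (h : HC J k (f * P) a) (hf : f ⊔ P = ⊤) (hP : P.IsMaximal)
    (h4 : Ideal.absNorm P = 4) : ∃ ω : 𝓞 M → ℂ, ω 1 = 1 ∧
    (∀ x y, x ∉ P → y ∉ P → ω (x * y) = ω x * ω y) ∧ (∀ x y, x ∉ P → x - y ∈ P → ω x = ω y) ∧
    ∀ y, y - 1 ∈ f → y ∉ P → ω y = W J k a y := by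
  choose t t1 t2 using crt hf
  have tn : ∀ x, x ∉ P → t x ∉ P := fun x hx m => hx (by simpa using P.sub_mem m (t2 x))
  refine ⟨fun x => W J k a (t x), W_one h hf hP (t1 1) (t2 1), fun x y hx hy => ?_,
    fun x y hx hy => ?_, fun y h1 h2 => W_congr h hf hP h4 (t1 y) h1 (tn y h2) (t2 y)⟩
  · rw [← W_mul h]
    refine W_congr h hf hP h4 (t1 _) (one_mul_mem (t1 x) (t1 y))
      (tn _ fun m => (hP.isPrime.mem_or_mem m).elim hx hy) ?_
    have : t (x * y) - t x * t y = t (x * y) - x * y - (t x - x) * t y - x * (t y - y) := by ring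
    rw [this]
    exact P.sub_mem (P.sub_mem (t2 _) (P.mul_mem_right _ (t2 x))) (P.mul_mem_left _ (t2 y))
  · refine W_congr h hf hP h4 (t1 x) (t1 y) (tn x hx) ?_
    have : t x - t y = t x - x + (x - y) - (t y - y) := by ring
    rw [this]
    exact P.sub_mem (P.add_mem (t2 x) hy) (t2 y)

theorem ex_pi (hf : f ⊔ P = ⊤) (hP : P.IsMaximal) (h0 : P ≠ ⊥) :
    ∃ (ϖ : 𝓞 M) (q : Ideal (𝓞 M)), ϖ ∈ P ∧ ϖ ∉ P ^ 2 ∧ ϖ - 1 ∈ f ∧ Ideal.span {ϖ} = P * q ∧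
      Cp f q ∧ q ⊔ P = ⊤ := by
  obtain ⟨p, p1, p2⟩ := Ideal.exists_mem_pow_notMem_pow_succ P h0 hP.ne_top 1
  obtain ⟨ϖ, w1, w2⟩ := crt (Ideal.sup_pow_eq_top (n := 2) hf) p
  rw [pow_one] at p1
  have m : ϖ ∈ P := by simpa using P.add_mem (Ideal.pow_le_self two_ne_zero w2) p1
  have n : ϖ ∉ P ^ 2 := fun m => p2 (by simpa using (P ^ 2).sub_mem m w2)
  obtain ⟨q, hq⟩ := Ideal.dvd_iff_le.2 ((Ideal.span_singleton_le_iff_mem _).2 m)
  have mq : ϖ ∈ P * q := hq ▸ Ideal.mem_span_singleton_self ϖ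
  refine ⟨ϖ, q, m, n, w1, hq, ⟨?_, ?_⟩, ?_⟩
  · rintro rfl
    rw [Ideal.mul_bot, Ideal.mem_bot] at mq
    exact n (mq ▸ zero_mem _)
  · rw [Ideal.eq_top_iff_one]
    simpa using (q ⊔ f).sub_mem (Ideal.mem_sup_left (Ideal.mul_le_right mq)) (Ideal.mem_sup_right w1)
  · by_contra ne
    refine n ?_
    rw [pow_two]
    exact Ideal.mul_mono_right (le_sup_left.trans (hP.eq_of_le ne le_sup_right).ge) mq

theorem vi_eq {x y : M} (h : Vi ι J x) (e : x = y) : Vi ι J y := e ▸ h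

theorem hv_inv {ψ : AddChar K ℂ} {μ : Type} [Fintype μ] {y : μ → M} {g : μ → ℂ} (val : VAL)
    {Ω : ℝ} (hB : Base ι J Ω) (hP : P.IsMaximal) {ϖ : 𝓞 M} (m : Vi ι J ((ϖ : M) / 2 ^ 1))
    {τ : ℂ} {ω : 𝓞 M → ℂ} (hm : ∀ x y, x ∉ P → y ∉ P → ω (x * y) = ω x * ω y)
    (hH : ∀ (x : M) (x' : 𝓞 M), Vi ι J ((ϖ * x - x') / 2) →
      hv ι J ψ 1 2 y g x = if x' ∈ P then 0 else τ * ω x')
    (u : (𝓞 M)ˣ) (hu : ω u = 1) (x : M) :
    hv ι J ψ 1 2 y g (((u : 𝓞 M) : M) * x) = hv ι J ψ 1 2 y g x := by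
  have un : (u : 𝓞 M) ∉ P := fun m => hP.ne_top (P.eq_top_of_isUnit_mem m u.isUnit)
  by_cases hx : Vi ι J (2 ^ 1 * x)
  · have v : Vi ι J (ϖ * x) := by
      have := Vi_mul m hx
      rwa [show (ϖ : M) / 2 ^ 1 * (2 ^ 1 * x) = ϖ * x by field_simp] at this
    obtain ⟨x', -, e⟩ := ((val K ι J Ω hB).2.2 M).2.2.2.1 ⊤ _ 1 pv_top v
    have e1 := Vi_mul (Vi_of ι J (-1 : 𝓞 M)) e
    have e2 := Vi_mul (Vi_of ι J (-(u : 𝓞 M))) e
    rw [hH x x' (vi_eq e1 (by push_cast; ring)), hH _ (u * x') (vi_eq e2 (by push_cast; ring))]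
    by_cases m : x' ∈ P
    · rw [if_pos m, if_pos (P.mul_mem_left _ m)]
    · rw [if_neg m, if_neg fun m' => (hP.isPrime.mem_or_mem m').elim un m, hm _ _ un m, hu, one_mul]
  · unfold hv
    rw [if_neg hx, if_neg]
    intro h
    apply hx
    have := Vi_mul (Vi_of ι J ((u⁻¹ : (𝓞 M)ˣ) : 𝓞 M)) h
    have e : (((u⁻¹ : (𝓞 M)ˣ) : 𝓞 M) : M) * ((u : 𝓞 M) : M) = 1 := by exact_mod_cast u.inv_mul
    rwa [show (((u⁻¹ : (𝓞 M)ˣ) : 𝓞 M) : M) * (2 ^ 1 * (((u : 𝓞 M) : M) * x)) = 2 ^ 1 * x by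
      linear_combination 2 * x * e] at this

end Vale.Agent.P004C.As.Cr

namespace Vale.Agent.P004C.As

open Cr

theorem congr (idl : IDL) (dua : DUA) (hcn : HCN) (val : VAL) (vaq : VAQ) (inr : INR) : CONGR := by
  intro K _ _ ι J Ω hB M _ _ _ h2 P hP h4 c l hc k f a₁ a₂ z δ k3 pf fl tf hw h₁ h₂ hx hδ d1 e1
    ac lt
  obtain ⟨hQ, ⟨b, vb, db⟩, np, hG⟩ := inr K ι J Ω hB M h2 P hP h4
  obtain ⟨pm, pn⟩ := (hP P).2 rfl
  have pvi : ∀ I, Pv ι J I ↔ I ⊔ P = ⊤ := fun I => hQ ▸ (vaq K ι J Ω hB M).1 I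
  have hf : f ⊔ P = ⊤ := (pvi f).1 pf
  have p0 : P ≠ ⊥ := by
    rintro rfl
    simp at h4
  have f0 : f * P ≠ ⊥ := by
    refine mul_ne_zero ?_ p0
    rintro rfl
    exact pm.ne_top (by simpa using hf)
  obtain ⟨y₀, y0, fd, ny⟩ := dua K ι J Ω hB M 2 b vb
  rw [db, mul_one] at ny
  obtain ⟨Ωp, ψ, nΩ, ps, hI⟩ := idl K ι J Ω hB
  obtain ⟨i, β, _, B, j, x, -, -, i1, hb, hE, hZ⟩ := hI M 2 b vb c l hc f pf fl hw 1
  have un := unit_norm hB h₁ hf pm h4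
  obtain rfl := i1 tf un
  rw [hQ] at hE
  obtain ⟨ϖ, q, w1, w2, w3, w4, w5, w6⟩ := ex_pi hf pm p0
  obtain ⟨ω, o1, o2, o3, o4⟩ := ex_om h₂ hf pm h4
  have we := fun y y1 y2 => W_eq val vaq hB h₁ h₂ (by omega) hf pm h4 hQ hδ d1 (y := y) y1 y2
  have fd0 : ∀ x, Fd ι J 0 (y₀ * x) ↔ Vi ι J x := fun x => by simpa using fd 0 x
  obtain ⟨τ, r, nτ, rn, o5, hH⟩ := hG ψ ps y₀ fd0 ϖ w1 w2 ω o1 o2 o3 (by
    obtain ⟨x, x1, x2, x3⟩ := hx
    refine ⟨x, x2, fun e => x3 ?_⟩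
    rw [o4 x x1 x2] at e
    rw [inv_pow]
    exact eq_inv_of_mul_eq_one_left e)
  obtain ⟨Z, z1, z2⟩ := hZ (Fin 3) (fun i => y₀ * r i) (fun i => (ω (r i))⁻¹)
    (fun i => (fd0 _).2 (Vi_of ι J _))
    (fun i => by rw [map_inv₀, norm_inv, root_norm (o5 _ (rn i)), inv_one])
    (fun u hu => hv_inv val hB pm (by rw [← hQ] at w1; exact w1) o2 hH u (by
      have n : (u : 𝓞 M) ∉ P := fun m => pm.ne_top (P.eq_top_of_isUnit_mem m u.isUnit)
      rw [o4 u hu n]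
      unfold W
      rw [Ideal.span_singleton_eq_top.2 u.isUnit, ← Ideal.one_eq_top, h₂.one, un u hu]
      simp))
  have p2 : Ideal.span {(2 : 𝓞 M)} ≤ P := by
    rw [Ideal.span_singleton_le_iff_mem, ← hQ]
    show Vi ι J (((2 : 𝓞 M) : M) / 2 ^ 1)
    have : ((2 : 𝓞 M) : M) = 2 := map_ofNat (algebraMap (𝓞 M) M) 2
    simpa [this] using Vi_of ι J (1 : 𝓞 M)
  have bp : ∀ j, B j ⊔ P = ⊤ := fun j => top_le_iff.1 ((hb j).2 ▸ sup_le_sup_left p2 _)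
  have n₁ : ∀ I, Cp f I → I ⊔ P = ⊤ → ‖ι (a₁ I)‖ = 1 := fun I u v =>
    (hcn K ι J Ω hB M 1 _ a₁ f0 h₁).2.2.1 I (nz u v) ((pvi I).2 v)
  have n₂ : ∀ I, Cp f I → I ⊔ P = ⊤ → ‖ι (a₂ I)‖ = 1 := fun I u v =>
    (hcn K ι J Ω hB M k _ a₂ f0 h₂).2.2.1 I (nz u v) ((pvi I).2 v)
  have ne : ∀ u : ℂ, ‖ι u‖ = 1 → u ≠ 0 := fun u hu e => by simp [e] at hu
  have nw := np ϖ w1 w2
  have τ0 : τ ≠ 0 := fun e => by simp [e] at nτ
  have N0 : J (Algebra.norm K (ϖ : M)) ≠ 0 := fun e => by simp [e] at nw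
  have d0 : 0 ≤ δ := (norm_nonneg _).trans (hδ ⊤ pv_top)
  have v2 := val_Z h₂ pm hc (fun j => ne _ (n₂ _ (hb j).1 (bp j))) hE w4 w3 hH o4
    (mul_ne_zero (mul_ne_zero τ0 (ne _ (n₂ q w5 w6))) (pow_ne_zero _ N0))
    ((z1 k (fun j => (a₂ (B j))⁻¹) (by omega)).2 (fun u hu => by rw [un u hu, one_pow]) 0 (by
      have : (3 : ℝ) ≤ k := by exact_mod_cast k3
      simp only [Complex.zero_re]
      linarith))
  have l0 : (l : ℂ) ≠ 0 := by exact_mod_cast hc.1.ne_zero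
  have v1 := ac0 ac one_pos (z1 1 (fun j => (a₁ (B j))⁻¹) one_pos).1
    (G := fun s => τ * a₁ q * J (Algebra.norm K (ϖ : M)) ^ 1 * (1 - l * a₁ c * (l : ℂ) ^ (-s)))
    (((differentiable_id.neg.const_cpow (Or.inl l0)).const_mul _).const_sub 1 |>.const_mul _)
    fun s hs => val_Z h₁ pm hc (fun j => ne _ (n₁ _ (hb j).1 (bp j))) hE w4 w3 hH
      (fun y y1 y2 => (o4 y y1 y2).trans (we y y1 y2).1.symm)
      (mul_ne_zero (mul_ne_zero τ0 (ne _ (n₁ q w5 w6))) (pow_ne_zero _ N0))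
      ((z1 1 (fun j => (a₁ (B j))⁻¹) one_pos).2 (fun u hu => by rw [un u hu, one_pow]) s (by
        push_cast
        linarith))
  simp only [neg_zero, Complex.cpow_zero, mul_one] at v1 v2
  have cg := z2 k 1 (fun j => (a₂ (B j))⁻¹) (fun j => (a₁ (B j))⁻¹)
    (ι (J (Algebra.norm K y₀)) ^ (k - 1)) δ 1 (by omega) one_pos d0 zero_le_one
    (fun j => by rw [map_inv₀, norm_inv, n₂ _ (hb j).1 (bp j), inv_one])
    (fun j => by
      have u := n₁ _ (hb j).1 (bp j)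
      have v := n₂ _ (hb j).1 (bp j)
      rw [norm_pow, ny, one_pow, one_mul, mul_one, inv_sub_inv (ne _ v) (ne _ u), map_div₀, norm_div,
        map_mul, norm_mul, u, v, mul_one, div_one]
      exact hδ _ ((pvi _).2 (bp j)))
    (fun i y' hy => by
      obtain ⟨t, rfl⟩ : ∃ t, y' = y₀ * t := ⟨y₀⁻¹ * y', by field_simp⟩
      have v : Vi ι J ((t - r i) / 2) := (fd 1 _).1 (by
        rwa [show 2 ^ 1 * y₀ * ((t - r i) / 2) = y₀ * t - y₀ * r i by ring])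
      have vt : Vi ι J t := by
        have := Vi_add (Vi_mul (Vi_of ι J (2 : 𝓞 M)) v) (Vi_of ι J (r i))
        have e : ((2 : 𝓞 M) : M) = 2 := map_ofNat (algebraMap (𝓞 M) M) 2
        rwa [e, show 2 * ((t - r i) / 2) + (r i : M) = t by ring] at this
      have := nr_lim val hB pf vt (k := k - 1) (k' := 0) (δ := δ) fun x x1 x2 =>
        (we x x1 fun m => rn i (by
          have : x - r i ∈ Qm ι J M 1 := by
            show Vi ι J (((x - r i : 𝓞 M) : M) / 2 ^ 1)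
            exact vi_eq (Vi_add x2 v) (by push_cast; ring)
          rw [hQ] at this
          simpa using P.sub_mem m this)).2
      rw [Nat.sub_self, pow_zero, mul_one, map_mul, map_mul, map_mul, mul_pow, ← mul_sub_one,
        norm_mul, norm_pow, ny, one_pow, one_mul]
      simpa using this)
    (fun i y' _ => by simp)
  rw [db, Real.sqrt_one, div_one] at cg
  have s4 : √(1 / 4 : ℝ) = 1 / 2 := by
    rw [show (1 / 4 : ℝ) = (1 / 2) ^ 2 by norm_num, Real.sqrt_sq (by norm_num)]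
  have m2 : ‖nv Ωp 2 k (ι (Z k (fun j => (a₂ (B j))⁻¹) 0))‖ =
      sc Ω (1 / 4) 2 k * ‖ι (∑' I, a₂ I)‖ := by
    rw [nv_norm, v2, map_mul, map_mul, map_mul, map_mul, map_pow, norm_mul, norm_mul, norm_mul,
      norm_mul, norm_pow, nτ, n₂ q w5 w6, nw, e1, nΩ, sc, s4]
    ring
  have m1 : ‖nv Ωp 2 1 (ι (Z 1 (fun j => (a₁ (B j))⁻¹) 0))‖ = sc Ω (1 / 4) 2 1 * ‖ι z‖ := by
    rw [nv_norm, v1, map_mul, map_mul, map_mul, map_mul, map_pow, norm_mul, norm_mul, norm_mul,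
      norm_mul, norm_pow, nτ, n₁ q w5 w6, nw, eul_c (hδ c (pv_c hc)) d1 e1, nΩ, sc, s4]
    ring
  have := ult (cg.trans_lt (m2 ▸ lt))
  rw [norm_mul, norm_pow, ny, one_pow, one_mul, m1, m2] at this
  exact this

end Vale.Agent.P004C.As
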