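import Vale.Agent.P004C.As.St
import Vale.Agent.P004C.Al.Gb0
import Mathlib.Analysis.Complex.CauchyIntegral
import Mathlib.Analysis.SpecialFunctions.Pow.Deriv
import Mathlib.Analysis.Convex.Topology

/-!
# P004 C, block AS: the congruence in the unramified case (helper98)
-/

set_option linter.unusedSectionVars false

open NumberField Module Filter Topology
open scoped Classical

noncomputable section

namespace Vale.Agent.P004C.As

open An

namespace Cu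

theorem nm_eq {x y : ℂ_[2]} (h : ‖x - y‖ < ‖x‖) : ‖y‖ = ‖x‖ := by
  have := IsUltrametricDist.norm_eq_of_add_norm_lt_max (x := x) (y := -y)
    (by rw [← sub_eq_add_neg]; exact h.trans_le (le_max_left _ _))
  rw [this, norm_neg]

theorem nm_one {x : ℂ_[2]} (h : ‖x‖ < 1) : ‖1 - x‖ = 1 :=
  (nm_eq (x := 1) (by simpa using h)).trans norm_one

section

variable {M : Type} [Field M] [NumberField M] {A : Ideal (𝓞 M) →* ℂ} {L Z : ℂ}
  {c D Q f : Ideal (𝓞 M)} {l : ℕ} {S : Finset (Ideal (𝓞 M))}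

theorem hs_dvd (h : HasSum A L) (D0 : D ≠ ⊥) :
    HasSum (fun I => if D ∣ I then A I else 0) (A D * L) :=
  ((mul_right_injective₀ D0).hasSum_iff fun _ hI => if_neg fun ⟨R, e⟩ => hI ⟨R, e.symm⟩).1
    (by simpa [Function.comp_def] using h.mul_left (A D))

theorem hs_xi (h : HasSum A L) (D0 : D ≠ ⊥) (c0 : c ≠ ⊥) (cp : IsCoprime D c) :
    HasSum (fun I => if D ∣ I then xi c l I * A I else 0) (A D * (1 - l * A c) * L) := by
  have := (hs_dvd h D0).sub ((hs_dvd h (mul_ne_zero D0 c0)).mul_left (l : ℂ))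
  rw [show A D * L - l * (A (D * c) * L) = A D * (1 - l * A c) * L by rw [map_mul]; ring] at this
  refine this.congr_fun fun I => ?_
  by_cases a : D ∣ I
  · by_cases b : c ∣ I
    · rw [if_pos a, if_pos a, if_pos (cp.mul_dvd a b), xi, if_pos b]; ring
    · rw [if_pos a, if_pos a, if_neg fun e => b (dvd_of_mul_left_dvd e), xi, if_neg b]; ring
  · rw [if_neg a, if_neg a, if_neg fun e => a (dvd_of_mul_right_dvd e)]; ring

theorem sum_T (A : Ideal (𝓞 M) →* ℂ) (S : Finset (Ideal (𝓞 M))) :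
    ∑ T ∈ S.powerset, (-1) ^ T.card / (Ideal.absNorm (∏ P ∈ T, P) : ℂ) * (A (∏ P ∈ T, P))⁻¹ =
      ∏ P ∈ S, (1 - (Ideal.absNorm P * A P)⁻¹) := by
  simp only [sub_eq_add_neg, Finset.prod_one_add]
  refine Finset.sum_congr rfl fun T _ => ?_
  rw [Finset.prod_neg, Finset.prod_inv_distrib, Finset.prod_mul_distrib, map_prod, map_prod,
    Nat.cast_prod, mul_inv, div_eq_mul_inv, mul_assoc]

theorem euler (hS : ∀ P ∈ S, P.IsMaximal ∧ P ∣ Q) (AQ : A Q ≠ 0) (Q0 : Q ≠ ⊥) (c0 : c ≠ ⊥)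
    (cp : IsCoprime Q c) (l2 : 2 ≤ l) (h : HasSum (fun I => xi c l I * A I * ∑ T ∈ S.powerset,
      if Q ∣ I * ∏ P ∈ T, P then (-1) ^ T.card / (Ideal.absNorm (∏ P ∈ T, P) : ℂ) else 0) Z) :
    Z = A Q * (∏ P ∈ S, (1 - (Ideal.absNorm P * A P)⁻¹)) * (1 - l * A c) * ∑' I, A I := by
  have k := sum_T 1 S
  simp only [MonoidHom.one_apply, inv_one, mul_one] at k
  have k0 : ∏ P ∈ S, (1 - (Ideal.absNorm P : ℂ)⁻¹) ≠ 0 := Finset.prod_ne_zero_iff.2 fun P hP e =>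
    (hS P hP).1.ne_top (Ideal.absNorm_eq_one_iff.1 (by
      exact_mod_cast inv_eq_one.1 (sub_eq_zero.1 e).symm))
  have s := h.summable.comp_injective (mul_right_injective₀ Q0)
  simp only [Function.comp_def, mul_assoc Q, dvd_mul_right, if_true, k, map_mul] at s
  have s1 : Summable A := by
    refine .of_norm_bounded (s.mul_right (A Q * ∏ P ∈ S, (1 - (Ideal.absNorm P : ℂ)⁻¹))⁻¹).norm
      fun I => ?_
    rw [show ∀ a b c d : ℂ, a * (b * c) * d * (b * d)⁻¹ = a * c * ((b * d) * (b * d)⁻¹) from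
      fun _ _ _ _ => by ring, mul_inv_cancel₀ (mul_ne_zero AQ k0), mul_one, norm_mul]
    refine le_mul_of_one_le_left (norm_nonneg _) ?_
    unfold xi
    split_ifs
    · obtain ⟨m, rfl⟩ := Nat.exists_eq_add_of_le' l2
      rw [← norm_neg, show -(1 - ((m + 2 : ℕ) : ℂ)) = (m + 1 : ℕ) by push_cast; ring,
        Complex.norm_natCast]
      simp
    · simp
  rw [← sum_T, Finset.mul_sum, Finset.sum_mul, Finset.sum_mul]
  simp only [Finset.mul_sum] at h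
  refine h.unique (hasSum_sum fun T hT => ?_)
  have hT := Finset.mem_powerset.1 hT
  obtain ⟨D, e⟩ : ∏ P ∈ T, P ∣ Q := Finset.prod_dvd_of_coprime (fun P hP P' hP' n =>
    Ideal.isCoprime_iff_sup_eq.2 ((hS P (hT hP)).1.coprime_of_ne (hS P' (hT hP')).1 n))
      fun P hP => (hS P (hT hP)).2
  subst e
  have := (hs_xi (l := l) s1.hasSum (right_ne_zero_of_mul Q0) c0 cp.of_mul_left_right).mul_left
    ((-1) ^ T.card / (Ideal.absNorm (∏ P ∈ T, P) : ℂ))
  rw [map_mul] at AQ ⊢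
  rw [show ∀ a b c d e : ℂ, a * b * (c * a⁻¹) * d * e = c * (b * d * e) * (a * a⁻¹) from
    fun _ _ _ _ _ => by ring, mul_inv_cancel₀ (left_ne_zero_of_mul AQ), mul_one]
  refine this.congr_fun fun I => ?_
  simp only [mul_comm I, mul_dvd_mul_iff_left (left_ne_zero_of_mul Q0)]
  split_ifs <;> ring

/-- the coefficients of the Dirichlet series -/
def mh (a : Ideal (𝓞 M) → ℂ) (o : a 1 = 1) (m : ∀ I I', a (I * I') = a I * a I') (s : ℂ) :
    Ideal (𝓞 M) →* ℂ where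
  toFun I := a I * (Ideal.absNorm I : ℂ) ^ (-s)
  map_one' := by rw [o, map_one]; simp
  map_mul' I I' := by rw [m, map_mul, Nat.cast_mul, Complex.natCast_mul_natCast_cpow]; ring

theorem ident {a : Ideal (𝓞 M) → ℂ} {z : ℂ} {F G : ℂ → ℂ} {k : ℕ} (k0 : 0 < k) (h : AC a z)
    (hF : DifferentiableOn ℂ F (Hp k)) (hG : Differentiable ℂ G)
    (e : ∀ s : ℂ, 1 < s.re → F s = G s * ∑' I, a I * (Ideal.absNorm I : ℂ) ^ (-s)) :
    F 0 = G 0 * z := by
  obtain ⟨δ, d0, D, E, hD, hE, E0, D0, h⟩ := h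
  have k1 : (1 : ℝ) ≤ k := Nat.one_le_cast.2 k0
  have o : ∀ r : ℝ, IsOpen {s : ℂ | r < s.re} := fun r =>
    isOpen_lt continuous_const Complex.continuous_re
  have u1 : {s : ℂ | -min δ 2⁻¹ < s.re} ⊆ {s | -δ < s.re} := fun s a =>
    show _ < _ from (neg_le_neg (min_le_left _ _)).trans_lt a.out
  have u2 : {s : ℂ | -min δ 2⁻¹ < s.re} ⊆ Hp k := fun s a => by
    have := (neg_le_neg (min_le_right _ _)).trans_lt a.out
    show (0 : ℝ) < _
    linarith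
  have m0 : 0 < min δ 2⁻¹ := lt_min d0 (by norm_num)
  have := (((hE.mono u1).mul (hF.mono u2)).analyticOnNhd (o _)).eqOn_of_preconnected_of_eventuallyEq
    ((hG.differentiableOn.mul (hD.mono u1)).analyticOnNhd (o _))
    (convex_halfSpace_re_gt _).isPreconnected (z₀ := 2) (by simp only [Set.mem_ofPred_eq, Complex.re_ofNat]; linarith)
    (((o 1).eventually_mem (by simp)).mono fun s a => by
      simp only [Pi.mul_apply, e s a, h s a]; ring) (x := 0) (by simpa using m0)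
  simp only [Pi.mul_apply, D0] at this
  exact mul_left_cancel₀ E0 (this.trans (by ring))

end

variable {K : Type} [Field K] [NumberField K] {ι : ℂ →+* ℂ_[2]} {J : K →+* ℂ}
  {M : Type} [Field M] [NumberField M] [Algebra K M] {f I B R : Ideal (𝓞 M)} {x : M}

theorem two_mem : (2 : 𝓞 M) ∈ Qm ι J M 1 := by
  show Vi ι J (((2 : 𝓞 M) : M) / 2 ^ 1)
  rw [show ((2 : 𝓞 M) : M) = 2 from map_ofNat (algebraMap (𝓞 M) M) 2, pow_one, div_self two_ne_zero]
  exact Vi_of ι J 1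

theorem vi_iff (h : E f x (I * B) (Qm ι J M 1)) (cp : IsCoprime (Qm ι J M 1) B) :
    (∀ y ∈ R, Vi ι J (x * y)) ↔ Qm ι J M 1 ∣ I * R := by
  obtain ⟨y, z, -, -, -, z0, e, h⟩ := h
  have z1 : (z : M) ≠ 0 := RingOfIntegers.coe_ne_zero_iff.2 z0
  have k : ∀ u v : 𝓞 M, y * u = z * v → x * u = v := fun u v a => mul_left_cancel₀ z1 (by
    rw [← mul_assoc, mul_comm _ x, e]
    exact_mod_cast congrArg (algebraMap (𝓞 M) M) a)
  refine ⟨fun a => cp.dvd_of_dvd_mul_left (Ideal.dvd_iff_le.2 ?_), fun ⟨R', a⟩ t ht => ?_⟩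
  · rw [← mul_assoc, mul_comm B]
    refine Ideal.mul_le.2 fun u hu t ht => ?_
    obtain ⟨q, hq, b⟩ := Ideal.mem_span_singleton_mul.1
      (h ▸ Ideal.mem_span_singleton_mul.2 ⟨u, hu, rfl⟩)
    show Vi ι J (((u * t : 𝓞 M) : M) / 2 ^ 1)
    rw [show ((u * t : 𝓞 M) : M) = u * t from map_mul _ _ _, ← k q u b,
      show x * q * t / 2 ^ 1 = x * t * (q / 2 ^ 1) by ring]
    exact Vi_mul (a t ht) hq
  · have : Ideal.span {y} * R = Ideal.span {z} * (B * R') :=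
      mul_left_cancel₀ (a := Qm ι J M 1) (fun q => two_ne_zero ((Ideal.mem_bot).1 (q ▸ two_mem)))
        (by rw [← mul_assoc, mul_comm _ (Ideal.span {y}), ← h, mul_assoc, mul_right_comm, a]; ring)
    obtain ⟨q, -, b⟩ := Ideal.mem_span_singleton_mul.1
      (this ▸ Ideal.mem_span_singleton_mul.2 ⟨t, ht, rfl⟩)
    rw [k t q b.symm]
    exact Vi_of ι J q

theorem cop (h : B ⊔ Ideal.span {2} = ⊤) : Qm ι J M 1 ⊔ B = ⊤ :=
  top_unique (h.ge.trans (sup_le le_sup_right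
    (((Ideal.span_singleton_le_iff_mem _).2 two_mem).trans le_sup_left)))

theorem unit_iff (u : (𝓞 M)ˣ) : Vi ι J (((u : 𝓞 M) : M) * x) ↔ Vi ι J x :=
  ⟨fun h => by
    have := Vi_mul (Vi_of ι J (u⁻¹ : (𝓞 M)ˣ)) h
    rwa [← mul_assoc, show (((u⁻¹ : (𝓞 M)ˣ) : 𝓞 M) : M) * ((u : 𝓞 M) : M) = 1 by
      rw [← map_mul, Units.inv_mul, map_one], one_mul] at this, Vi_mul (Vi_of ι J (u : 𝓞 M))⟩

end Cu

open Cu Al.Gx in
/-- **row CONGU** -/
theorem congu (idl : IDL) (dua : DUA) (hcn : HCN) (val : VAL) (vaq : VAQ) (fou : FOU) : CONGU := by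
  intro K _ _ ι J Ω hb M _ _ _ n b _ vb c l sm k₁ k f a₁ a₂ z δ hk k3 pf fl tf hw h1 h2 hδ δ1 hl ac lt
  obtain ⟨Ωp, ψ, hΩ, hψ, idl⟩ := idl K ι J Ω hb
  obtain ⟨i, β, _, B, j, x, -, -, i1, hB, hx, idl⟩ := idl M n b vb c l sm f pf fl hw 1
  obtain ⟨y₀, y0, d1, d2⟩ := dua K ι J Ω hb M n b vb
  obtain ⟨q1, q2, -, q4, -⟩ := vaq K ι J Ω hb M
  obtain ⟨-, -, v3, v4, v5⟩ := (val K ι J Ω hb).2.2 M
  have Q0 : Qm ι J M 1 ≠ ⊥ := fun q => two_ne_zero (Ideal.mem_bot.1 (q ▸ two_mem (ι := ι) (J := J)))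
  have f0 : f ≠ ⊥ := fun e => by
    obtain ⟨w, w1, -⟩ := hw
    obtain ⟨s, s1, s2⟩ := pf
    rw [e, Ideal.mem_bot, map_eq_zero_iff _ (FaithfulSMul.algebraMap_injective _ _)] at s2
    simp [s2] at s1
  have fQ := (q1 f).1 pf
  have k0 : 0 < k := by omega
  have k1 : 0 < k₁ := by omega
  have c1 := hcn K ι J Ω hb M k₁ f a₁ f0 h1
  have c2 := hcn K ι J Ω hb M k f a₂ f0 h2
  obtain rfl : i = 1 := i1 tf fun u hu => hk.elim (fun e => by simpa [e] using c1.1 u hu)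
    fun e => e.2 u hu
  have fin : {P | Av ι J P}.Finite := (Ideal.finite_minimalPrimes_of_isNoetherianRing _
    (Qm ι J M 1)).subset fun P hP => ⟨⟨((q2 P).1 hP).1.isPrime, ((q2 P).1 hP).2⟩,
      fun P' a e => ((Ring.DimensionLEOne.maximalOfPrime (fun e => Q0 (le_bot_iff.1 (e ▸ a.2)))
        a.1).eq_of_le ((q2 P).1 hP).1.ne_top e).ge⟩
  have d0 : ∀ x, Fd ι J 0 (y₀ * x) ↔ Vi ι J x := fun x => by simpa using d1 0 x
  obtain ⟨μ, _, r, r1, r2⟩ := fou K ι J Ω hb ψ hψ M n (by simpa using finrank_eq_card_basis b) y₀ d0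
    fin.toFinset fun _ => fin.mem_toFinset
  obtain ⟨Z, z1, z2⟩ := idl μ (fun i => y₀ * r i) (fun _ => 1) (fun i => (d0 _).2 (Vi_of ι J _))
    (fun _ => by simp) fun u _ x => by
      by_cases e : Vi ι J (2 * x)
      · rw [r2 x e, r2 _ (by rw [mul_left_comm]; exact (unit_iff u).2 e)]
        simp only [mul_assoc, unit_iff]
      · rw [hv, hv, pow_one, if_neg e, if_neg (by rw [mul_left_comm, unit_iff]; exact e)]
  have c0 : c ≠ ⊥ := fun e => sm.1.ne_zero (by rw [← sm.2.2.1, e, Ideal.absNorm_bot])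
  have cQ : Qm ι J M 1 ⊔ c = ⊤ := cop (Ideal.isCoprime_iff_sup_eq.1 (by
    obtain ⟨m, e⟩ := sm.1.odd_of_ne_two sm.2.1
    refine Ideal.isCoprime_iff_exists.2 ⟨_, c.absNorm_mem, -m * 2,
      Ideal.mem_span_singleton'.2 ⟨_, rfl⟩, ?_⟩
    rw [sm.2.2.1, e]; push_cast; ring))
  have cpQ : Cp f (Qm ι J M 1) := ⟨Q0, sup_comm f _ ▸ fQ⟩
  have cpP : ∀ P, Av ι J P → Cp f P := fun P hP => ⟨fun e => Q0 (le_bot_iff.1 (e ▸ ((q2 P).1 hP).2)),
    top_unique (cpQ.2.ge.trans (sup_le_sup_right ((q2 P).1 hP).2 _))⟩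
  have key : ∀ k a (h : HC J k f a), 0 < k → ∀ s : ℂ, 2 < (k : ℝ) + 2 * s.re →
      Z k (fun j => (a (B j))⁻¹) s = (Ideal.absNorm (Qm ι J M 1) : ℂ) ^ (-s) *
        (∏ P ∈ fin.toFinset, (1 - (Ideal.absNorm P * a P)⁻¹ * (Ideal.absNorm P : ℂ) ^ s)) *
        (1 - l * (a c * (Ideal.absNorm c : ℂ) ^ (-s))) *
        ∑' I, a I * (Ideal.absNorm I : ℂ) ^ (-s) := fun k a h k0 s hs => by
    have c := hcn K ι J Ω hb M k f a f0 h
    have n0 : ∀ I, Cp f I → a I ≠ 0 := fun I hI e => ((h.zero I).1 e).elim hI.1 fun e => e hI.2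
    have := euler (A := mh a h.one h.mul s) (S := fin.toFinset) (fun P hP =>
      ((q2 P).1 (fin.mem_toFinset.1 hP)).imp_right Ideal.dvd_iff_le.2)
      (mul_ne_zero (n0 _ cpQ) (by simp [Ideal.absNorm_eq_zero_iff, Q0])) Q0 c0 (Ideal.isCoprime_iff_sup_eq.2 cQ) sm.1.two_le
      ((((z1 k (fun j => (a (B j))⁻¹) k0).2 c.1 s hs).mul_left (a (Qm ι J M 1))).congr_fun
        fun I => ?_)
    · refine mul_left_cancel₀ (n0 _ cpQ) (this.trans ?_)
      simp only [mh, MonoidHom.coe_mk, OneHom.coe_mk, Complex.cpow_neg, mul_inv, inv_inv, mul_assoc]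
    by_cases e : Cp f I
    · have v := fun R => vi_iff (R := R) (hx I e) (Ideal.isCoprime_iff_sup_eq.2 (cop (hB _).2))
      have e2 := c.2.1 _ _ _ (hx I e)
      rw [h.mul] at e2
      rw [if_pos e, r2 _ (mul_comm (x I) 2 ▸ (v (Ideal.span {2})).2 (Dvd.dvd.mul_left
        (Ideal.dvd_span_singleton.2 two_mem) _) 2 (Ideal.mem_span_singleton_self _))]
      simp only [v, mh, MonoidHom.coe_mk, OneHom.coe_mk]
      rw [show a I = a (Qm ι J M 1) / J (Algebra.norm K (x I)) ^ k * (a (B (j I)))⁻¹ by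
        rw [← e2, mul_inv_cancel_right₀ (n0 _ (hB _).1)]]
      push_cast
      ring
    · simp [if_neg e, mh, (h.zero I).2 (by simpa [Cp, or_iff_not_imp_left] using e)]
  have e1 := ident k1 ac (z1 k₁ (fun j => (a₁ (B j))⁻¹) k1).1 (G := fun s => _) ?_ fun s hs =>
    key k₁ a₁ h1 k1 s (by linarith [(Nat.cast_pos (α := ℝ)).2 k1])
  swap
  · have n0 : ∀ I : Ideal (𝓞 M), I ≠ ⊥ → (Ideal.absNorm I : ℂ) ≠ 0 ∨ False := fun I e => by
      simp [Ideal.absNorm_eq_zero_iff, e]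
    refine ((differentiable_neg.const_cpow ((n0 _ Q0).imp_right False.elim)).mul
      (Differentiable.fun_finsetProd fun P hP => ((differentiable_id.const_cpow
        ((n0 _ (cpP P (fin.mem_toFinset.1 hP)).1).imp_right False.elim)).const_mul _).const_sub _)).mul
      ((((differentiable_neg.const_cpow ((n0 _ c0).imp_right False.elim)).const_mul _).const_mul
        _).const_sub _)
  have e2 := key k a₂ h2 k0 0 (by simpa using (by exact_mod_cast k3 : (2 : ℝ) < k))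
  simp only [neg_zero, Complex.cpow_zero, mul_one, one_mul] at e1 e2
  have δ0 : 0 ≤ δ := (norm_nonneg _).trans (hδ ⊤ ⟨1, by simp, trivial⟩)
  have dp : 0 < dv ι J b := (norm_nonneg _).lt_of_ne fun e => zero_ne_one (by
    rw [← d2, dv, ← e, mul_zero])
  have n2 : ‖(2 : ℂ_[2])‖ < 1 := by rw [nm_two]; norm_num
  set N : M → ℂ_[2] := fun x => ι (J (Algebra.norm K x)) with hN
  have Nm : ∀ x y, N (x * y) = N x * N y := fun x y => by simp only [N, map_mul]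
  have Ny : ‖N y₀‖ = (dv ι J b)⁻¹ := eq_inv_of_mul_eq_one_left d2
  have N0 : N y₀ ≠ 0 := norm_ne_zero_iff.1 (Ny ▸ (inv_pos.2 dp).ne')
  have nr : ∀ i y', Fd ι J 1 (y' - y₀ * r i) → ∃ t, N y' = N y₀ * t ∧ ‖t‖ = 1 ∧
      ‖t ^ (k - 1) - t ^ (k₁ - 1)‖ ≤ δ := fun i y' e => by
    have a : Vi ι J ((y' / y₀ - r i) / 2 ^ 1) := (d1 1 _).1 (by
      rwa [show 2 ^ 1 * y₀ * ((y' / y₀ - r i) / 2 ^ 1) = y' - y₀ * r i by field_simp])
    have a1 : ‖N (y' / y₀)‖ = 1 := (nm_eq (x := N (r i)) (by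
      rw [norm_sub_rev, r1, ← one_pow 1]
      exact (v3 _ _ 1 (Vi_of ι J _) a).trans_lt (by simpa using n2))).trans (r1 i)
    have a2 : Vi ι J (y' / y₀) := by
      have := Vi_add (Vi_of ι J (r i)) (Vi_mul (Vi_of ι J 2) a)
      rwa [show ((2 : 𝓞 M) : M) = 2 from map_ofNat (algebraMap (𝓞 M) M) 2, pow_one,
        mul_div_cancel₀ _ two_ne_zero, add_sub_cancel] at this
    refine ⟨_, by rw [← Nm, mul_div_cancel₀ _ y0], a1, ?_⟩
    choose x x1 x2 using fun m => v4 f _ (m + 1) pf a2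
    have x3 := fun m => v3 _ _ _ a2 (x2 m)
    have tx : Tendsto (fun m => N (x m)) atTop (𝓝 (N (y' / y₀))) :=
      tendsto_iff_norm_sub_tendsto_zero.2 (squeeze_zero (fun _ => norm_nonneg _) x3
        ((tendsto_add_atTop_iff_nat 1).2 (tendsto_pow_atTop_nhds_zero_of_lt_one (norm_nonneg _) n2)))
    refine le_of_tendsto' ((tx.pow _).sub (tx.pow _)).norm fun m => ?_
    have x4 : ‖N (x m)‖ = 1 := (nm_eq (by
      rw [norm_sub_rev, a1]
      exact (x3 m).trans_lt (pow_lt_one₀ (norm_nonneg _) n2 m.succ_ne_zero))).trans a1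
    have x5 : N (x m) ≠ 0 := norm_ne_zero_iff.1 (x4 ▸ one_ne_zero)
    have x0 : x m ≠ 0 := fun e => x5 (by
      haveI : FiniteDimensional K M := Module.Finite.of_basis b
      simp [N, e])
    have := hδ _ ((v5 _).2 x4)
    rw [h1.prn _ x0 (x1 m), h2.prn _ x0 (x1 m), map_sub, map_pow, map_pow, map_inv₀] at this
    obtain ⟨k, rfl⟩ := Nat.exists_eq_add_of_le' k0
    obtain ⟨k₁, rfl⟩ := Nat.exists_eq_add_of_le' k1
    refine Eq.trans_le ?_ this
    have x6 : ‖N (x m) ^ (k + k₁ + 1)‖ = 1 := by rw [norm_pow, x4, one_pow]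
    rw [← mul_one ‖_⁻¹ ^ _ - _‖, ← x6, ← norm_mul]
    congr 1
    simp only [Nat.succ_eq_add_one, Nat.add_sub_cancel]
    change _ = ((N (x m))⁻¹ ^ _ - (N (x m))⁻¹ ^ _) * _
    simp only [inv_pow]
    field_simp
    ring
  have pB : ∀ j, Pv ι J (B j) := fun j => (q1 _).2 (sup_comm (B j) _ ▸ cop (hB j).2)
  have b1 := fun j => c1.2.2.1 _ (hB j).1 (pB j)
  have b2 := fun j => c2.2.2.1 _ (hB j).1 (pB j)
  have fz := z2 k k₁ (fun j => (a₂ (B j))⁻¹) (fun j => (a₁ (B j))⁻¹)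
    (N y₀ ^ (k - 1) / N y₀ ^ (k₁ - 1)) (δ * (dv ι J b)⁻¹ ^ (k - 1)) ((dv ι J b)⁻¹ ^ (k₁ - 1)) k0 k1
    (by positivity) (by positivity) (fun j => by rw [map_inv₀, norm_inv, b2, inv_one])
    (fun j => ?_) (fun i y' e => ?_) fun i y' e => ?_
  rotate_left
  · rw [norm_div, norm_pow, norm_pow, Ny, mul_right_comm, div_mul_cancel₀ _ (by positivity),
      mul_comm, map_sub, map_inv₀, map_inv₀, inv_sub_inv (norm_ne_zero_iff.1 (b2 j ▸ one_ne_zero))
      (norm_ne_zero_iff.1 (b1 j ▸ one_ne_zero)), norm_div, norm_mul, b1, b2, mul_one, div_one,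
      ← map_sub]
    exact mul_le_mul_of_nonneg_right (hδ _ (pB j)) (by positivity)
  · obtain ⟨t, t1, -, t3⟩ := nr i y' e
    change ‖N y' ^ _ - _ * N y' ^ _‖ ≤ _
    rw [t1, mul_pow, mul_pow, ← mul_assoc, div_mul_cancel₀ _ (pow_ne_zero _ N0), ← mul_sub,
      norm_mul, norm_pow, Ny, mul_comm]
    exact mul_le_mul_of_nonneg_right t3 (by positivity)
  · obtain ⟨t, t1, t2, -⟩ := nr i y' e
    change ‖N y' ^ _ - _‖ ≤ _
    rw [zero_mul, sub_zero, t1, norm_pow, norm_mul, t2, mul_one, Ny]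
  have l1 : ‖ι (1 - l * a₁ c)‖ = 1 := (nm_eq (by
    rw [hl, ← map_sub, show 1 - l * a₂ c - (1 - l * a₁ c) = l * (a₁ c - a₂ c) by ring, map_mul,
      norm_mul, map_natCast]
    exact (mul_le_of_le_one_left (norm_nonneg _) (IsUltrametricDist.norm_natCast_le_one _ _)).trans_lt
      ((hδ c ((q1 c).2 (sup_comm c _ ▸ cQ))).trans_lt δ1))).trans hl
  have p2 : ‖ι (∏ P ∈ fin.toFinset, (1 - (Ideal.absNorm P * a₂ P)⁻¹))‖ = 1 := by
    rw [map_prod, norm_prod]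
    refine Finset.prod_eq_one fun P hP => ?_
    have hP := fin.mem_toFinset.1 hP
    obtain ⟨p1, p2⟩ := c2.2.2.2 P (cpP P hP) hP
    rw [map_sub, map_one]
    refine nm_one ?_
    obtain ⟨k, rfl⟩ := Nat.exists_eq_add_of_le' k3
    rw [map_inv₀, map_mul, map_natCast, norm_inv, norm_mul,
      inv_eq_of_mul_eq_one_right (b := ‖(Ideal.absNorm P : ℂ_[2])‖ ^ (k + 2)) (by rw [← p2]; ring)]
    exact pow_lt_one₀ (norm_nonneg _) p1 (by omega)
  have nn : ∀ k y, ‖nv Ωp n k y‖ * (dv ι J b ^ k / √(dv ι J b)) = sc Ω (dv ι J b) n k * ‖y‖ :=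
    fun k y => by
      rw [nv, sc, norm_mul, norm_pow, norm_div, norm_mul, norm_pow, norm_neg, norm_one, one_pow,
        one_mul, norm_pow, hΩ]
      ring
  have sp : 0 < dv ι J b ^ k / √(dv ι J b) := by positivity
  have n1 : ‖ι (Z k₁ (fun j => (a₁ (B j))⁻¹) 0)‖ =
      (∏ P ∈ fin.toFinset, ‖ι (1 - (Ideal.absNorm P * a₁ P)⁻¹)‖) * ‖ι z‖ := by
    rw [e1, map_mul, map_mul, norm_mul, norm_mul, l1, mul_one, map_prod, norm_prod]
  have n3 : ‖ι (Z k (fun j => (a₂ (B j))⁻¹) 0)‖ = ‖ι (∑' I, a₂ I)‖ := by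
    rw [e2, map_mul, map_mul, norm_mul, norm_mul, p2, hl, one_mul, one_mul]
  have g3 := nm_eq (fz.trans_lt (lt_of_mul_lt_mul_right (a := dv ι J b ^ k / √(dv ι J b)) (by
    rw [nn, n3]
    refine Eq.trans_lt ?_ lt
    obtain ⟨k, rfl⟩ := Nat.exists_eq_add_of_le' k0
    rw [div_mul_div_comm, Real.mul_self_sqrt dp.le]
    simp only [Nat.succ_eq_add_one, Nat.add_sub_cancel, inv_pow]
    field_simp
    ring) sp.le))
  rw [← n3, ← nn k, ← g3, ← fin.coe_toFinset, finprod_mem_coe_finset, mul_assoc, ← n1, ← nn,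
    norm_mul, norm_div, norm_pow, norm_pow, Ny]
  obtain ⟨k, rfl⟩ := Nat.exists_eq_add_of_le' k0
  obtain ⟨k₁, rfl⟩ := Nat.exists_eq_add_of_le' k1
  simp only [Nat.succ_eq_add_one, Nat.add_sub_cancel, inv_pow]
  field_simp
  ring

end Vale.Agent.P004C.As
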