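import Vale.Agent.P004C.As.St
import Vale.Agent.P004C.Al.Dis0

/-!
# P004 C, block AS: a generator of the inverse different at `v`
-/

open NumberField Module Algebra
open scoped Classical

noncomputable section

namespace Vale.Agent.P004C.As

open Al.Gx Al.Ds

namespace Du

variable {K : Type} [Field K] [NumberField K] {ι : ℂ →+* ℂ_[2]} {J : K →+* ℂ}
  {M : Type} [Field M] [NumberField M] [Algebra K M] {n : ℕ} {b : Basis (Fin n) K M}

theorem fd_pow (m : ℕ) (y : M) : Fd ι J m (2 ^ m * y) ↔ Fd ι J 0 y := by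
  refine forall_congr' fun r => ?_
  have e : trace K M (r * (2 ^ m * y)) = 2 ^ m * trace K M (r * y) := by
    rw [← smul_eq_mul ((2 : K) ^ m), ← map_smul, smul_def, map_pow, map_ofNat, mul_left_comm]
  have p : 0 < ‖(2 : ℂ_[2])‖ ^ m := pow_pos (norm_pos_iff.2 two_ne_zero) m
  rw [e, map_mul, map_mul, norm_mul, map_pow, map_pow, map_ofNat, map_ofNat, norm_pow, pow_zero]
  exact mul_le_iff_le_one_right p

theorem fd_zero (hb : Vb ι J b) (y : M) :
    Fd ι J 0 y ↔ ∀ x ∈ Ov ι J M, trace K M (y * x) ∈ Ov ι J K := by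
  refine ⟨fun h x ⟨s, a, c⟩ => (ov_K hb).2 ?_, fun h r => ?_⟩
  · have k := h ⟨_, c⟩
    have e : trace K M (algebraMap K M s * x * y) = s * trace K M (y * x) := by
      rw [← smul_eq_mul (s : K), ← map_smul, smul_def, mul_assoc, mul_comm x]
    rw [pow_zero] at k
    change ‖ι (J (trace K M (algebraMap K M s * x * y)))‖ ≤ 1 at k
    rwa [e, map_mul, map_mul, norm_mul, a, one_mul] at k
  · rw [pow_zero, mul_comm]
    exact ov_nm (h _ (int_Ov r))

end Du

theorem dua : DUA := by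
  intro K _ _ ι J Ω _ M _ _ _ n b hb
  obtain ⟨g, -, h⟩ := dg_ex (ι := ι) (J := J) (M := K) (N := M)
  refine ⟨(g : M)⁻¹, inv_ne_zero h.1, fun m x => ?_, ?_⟩
  · rw [mul_assoc, Du.fd_pow, Du.fd_zero hb, h.2, mul_inv_cancel_left₀ h.1]
    rfl
  · have n0 : norm K (g : M) ≠ 0 := norm_ne_zero_iff.2 h.1
    rw [dv_eq hb h, Algebra.norm_inv, map_inv₀, map_inv₀, _root_.norm_inv]
    exact inv_mul_cancel₀ (by simpa using n0)

end Vale.Agent.P004C.As
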