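import Vale.Agent.P004C.As.St
import Vale.Agent.P004C.Al.Gb0
import Vale.Agent.P004C.Al.Hc

/-!
# P004 C, block AS: sizes of the values of Hecke characters
-/

open NumberField Module Ideal
open scoped Classical

noncomputable section

namespace Vale.Agent.P004C.As

open Al Al.Gx

theorem hcn (hV : VAL) : HCN := by
  intro K _ _ ι J Ω hB M _ _ _ k f a hf h
  obtain ⟨⟨π, p1, p2⟩, v2, v3⟩ := hV K ι J Ω hB
  obtain ⟨-, -, -, -, v7⟩ := v3 M
  have n0 : ∀ x : 𝓞 M, x ≠ 0 → J (Algebra.norm K (x : M)) ≠ 0 := fun x hx => by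
    rw [map_ne_zero, Algebra.norm_ne_zero_iff]
    exact_mod_cast hx
  refine ⟨fun u hu => ?_, fun x I I' ⟨y, z, hy, hz, y0, z0, e, e'⟩ => ?_, fun I hI hP => ?_,
    fun P hP hA => ?_⟩
  · have e := h.prn u u.ne_zero hu
    rw [span_singleton_eq_top.2 u.isUnit, ← one_eq_top, h.one, inv_pow, eq_comm, inv_eq_one,
      ← map_pow, ← map_one J] at e
    exact J.injective e
  · have k := congrArg a e'
    have n := congrArg (fun w => J (Algebra.norm K w)) e
    simp only [map_mul] at n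
    have z1 := n0 z z0
    have x1 : J (Algebra.norm K x) ≠ 0 := left_ne_zero_of_mul (n ▸ n0 y y0)
    rw [h.mul, h.mul, h.prn y y0 hy, h.prn z z0 hz, ← n, mul_inv, mul_pow, mul_right_comm,
      mul_comm _ (a I)] at k
    rw [mul_right_cancel₀ (pow_ne_zero _ (inv_ne_zero z1)) k, inv_pow, div_eq_inv_mul]
  · obtain ⟨m, m0, x, x0, hx, e⟩ := ex_gen hf hI.1 hI.2
    obtain ⟨s, s1, s2⟩ := hP
    have n := (v7 x).1 ⟨s ^ m, by simp [s1], by rw [e, map_pow]; exact pow_mem_pow s2 m⟩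
    have k := congrArg (fun z => ‖ι z‖) (h.prn x x0 hx)
    simp only [e, h.cm.pow, map_pow, map_inv₀, norm_pow, norm_inv, n, inv_one, one_pow] at k
    exact (pow_eq_one_iff_of_nonneg (norm_nonneg _) m0.ne').1 k
  · obtain ⟨m, m0, x, x0, hx, e⟩ := ex_gen hf hP.1 hP.2
    have pm : algebraMap (𝓞 K) (𝓞 M) π ∈ P := by
      have := hA.1
      by_contra c
      obtain ⟨u, b, hb, r⟩ := (inferInstance :
        (P.comap (algebraMap (𝓞 K) (𝓞 M))).IsMaximal).exists_inv c
      refine hA.2 ⟨b, not_vv.1 fun w => ?_, hb⟩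
      exact (ne_top_iff_one _).1 vv_prime.ne_top (r ▸ add_mem (mul_mem_left _ _ p1) w)
    have d : RingOfIntegers.norm K x ∣ π ^ (finrank K M * m) := by
      rw [pow_mul, ← RingOfIntegers.norm_algebraMap, ← map_pow]
      exact map_dvd _ (mem_span_singleton.1 (e ▸ pow_mem_pow pm m))
    have c := (v2 (RingOfIntegers.norm K x) fun s hs =>
      (p2 s hs).pow_left.of_isCoprime_of_dvd_left d).1
    rw [RingOfIntegers.coe_norm] at c
    have e1 : ‖J (Algebra.norm K (x : M))‖ ^ 2 = (absNorm P : ℝ) ^ m := by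
      rw [norm_J hB.two hB.im, Algebra.norm_norm, ← Nat.cast_pow, ← map_pow, ← e,
        absNorm_span_singleton, ← Algebra.coe_norm_int, Nat.cast_natAbs]
      simp
    have e2 : ‖(absNorm P : ℂ_[2])‖ ^ m = ‖ι (J (Algebra.norm K (x : M)))‖ := by
      have := congrArg (fun z => ‖ι z‖) (Complex.mul_conj' (J (Algebra.norm K (x : M))))
      rw [← Complex.ofReal_pow, e1] at this
      simpa [c] using this.symm
    have l1 : ‖ι (J (Algebra.norm K (x : M)))‖ < 1 := by
      refine lt_of_le_of_ne (RingOfIntegers.coe_norm K x ▸ nm_le _) fun w => hA.2 ?_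
      obtain ⟨s, s1, s2⟩ := (v7 x).2 w
      exact ⟨s, s1, pow_le_self m0.ne' (e ▸ s2)⟩
    refine ⟨lt_of_pow_lt_pow_left₀ m zero_le_one (by rwa [e2, one_pow]), ?_⟩
    refine (pow_eq_one_iff_of_nonneg (by positivity) m0.ne').1 ?_
    have k := congrArg (fun z => ‖ι z‖) (h.prn x x0 hx)
    simp only [e, h.cm.pow, map_pow, map_inv₀, norm_pow, norm_inv] at k
    rw [mul_pow, k, ← pow_mul, mul_comm _ m, pow_mul, e2, ← mul_pow, inv_mul_cancel₀, one_pow]
    simpa using n0 x x0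

end Vale.Agent.P004C.As
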