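import Vale.Agent.P004C.As.Idl
import Vale.Agent.P004C.As.Val
import Vale.Agent.P004C.As.Vaq
import Vale.Agent.P004C.As.Dua
import Vale.Agent.P004C.As.Unt
import Vale.Agent.P004C.As.Ray
import Vale.Agent.P004C.As.Hcn
import Vale.Agent.P004C.As.Vtx
import Vale.Agent.P004C.As.Fou
import Vale.Agent.P004C.As.Inr
import Vale.Agent.P004C.As.Bnd
import Vale.Agent.P004C.As.Congu
import Vale.Agent.P004C.As.Congr
import Vale.Agent.P004C.An.Ipl

/-!
# P004 C, block AS: the three exports from the measures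
-/

namespace Vale.Agent.P004C.As

theorem idl0 (hA : Ms.BAS) (hM : Ms.MSR) (hT : Ms.TFC) : IDL :=
  idl An.ipl hA hM hT unt ray vtx val vaq0

theorem bnd0 (hA : Ms.BAS) (hM : Ms.MSR) (hT : Ms.TFC) : BND :=
  bnd (idl0 hA hM hT) dua (hcn val) val vaq0

theorem congu0 (hA : Ms.BAS) (hM : Ms.MSR) (hT : Ms.TFC) : CONGU :=
  congu (idl0 hA hM hT) dua (hcn val) val vaq0 (fou val vaq0)

theorem congr0 (hA : Ms.BAS) (hM : Ms.MSR) (hT : Ms.TFC) : CONGR :=
  congr (idl0 hA hM hT) dua (hcn val) val vaq0 (inr val vaq0)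

end Vale.Agent.P004C.As
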