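import Vale.Agent.P004C.As.Emb
import Vale.Agent.P004C.An.Cs

/-!
# P004 C, block AS: series over the orbits of the units in one lattice
-/

set_option linter.unusedSectionVars false

open NumberField Module Finset
open scoped Classical

noncomputable section

namespace Vale.Agent.P004C.As

open An

variable {K : Type} [Field K] [NumberField K] {ι : ℂ →+* ℂ_[2]} {J : K →+* ℂ} {Ω : ℝ}
  {M : Type} [Field M] [NumberField M] [Algebra K M]

/-- what the measure of one simplex gives -/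
def Mv (ι : ℂ →+* ℂ_[2]) (J : K →+* ℂ) (Ωp : ℂ_[2]) (ψ : AddChar K ℂ) (d : ℝ) {n : ℕ}
    (σ : Fin n → M →+* ℂ) (t : Fin n → M) (φ : M → ℂ) (m : ℕ) (y : M) : Prop := ∃ s : ℕ → ℂ,
  (∀ k, 0 < k → Reg (fun x : M => if Vi ι J (2 ^ m * x) then
    φ x * ψ (-Algebra.trace K M (x * y)) * ck k (fun j i => σ i (t j)) (fun i => σ i x) else 0)
    (s k)) ∧
  ∀ (k k' : ℕ) (ν : ℂ_[2]) (δ : ℝ), 0 < k → 0 < k' → Nr ι J m k k' (fun _ : Unit => y) ν δ →
    ‖(((k - 1).factorial : ℂ_[2]) / Ωp ^ k) ^ n * ι (s k) -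
      ν * ((((k' - 1).factorial : ℂ_[2]) / Ωp ^ k') ^ n * ι (s k'))‖ ≤
      ‖(2 : ℂ_[2])‖ ^ (m * n) * δ / √d

theorem sp_ind {V : Type} {n : ℕ} {S : Set V} {Q : Ch V → Prop}
    (h : ∀ a : Fin n → V, (∀ j, a j ∈ S) → Q (FreeAbelianGroup.of (List.ofFn a))) (h0 : Q 0)
    (ha : ∀ a b, Q a → Q b → Q (a + b)) (hn : ∀ a, Q a → Q (-a)) {c : Ch V}
    (hc : c ∈ sp (Vx S n)) : Q c := by
  refine AddSubgroup.closure_induction (p := fun c _ => Q c) ?_ h0 (fun a b _ _ => ha a b)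
    (fun a _ => hn a) hc
  rintro _ ⟨L, k, rfl⟩
  obtain ⟨a, rfl⟩ := ex_ofFn k.1
  exact h a fun j => k.2 _ (List.mem_ofFn.2 ⟨j, rfl⟩)

theorem reg_co {X V : Type} [AddCommGroup X] {n : ℕ} {S : Set V} (Φ : X → ℂ)
    (F : X → (Fin n → V) → ℂ) (s : (Fin n → V) → ℂ)
    (h : ∀ a, (∀ j, a j ∈ S) → Reg (fun x => Φ x * F x a) (s a)) {c : Ch V}
    (hc : c ∈ sp (Vx S n)) : Reg (fun x => Φ x * co (F x) c) (co s c) := by
  refine sp_ind (Q := fun c => Reg (fun x => Φ x * co (F x) c) (co s c)) (fun a k => ?_) ?_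
    (fun a b ha hb => ?_) (fun a ha => ?_) hc
  · simpa only [co_ofFn] using h a k
  · exact Reg.zero.congr (fun x => by simp) (map_zero _)
  · simpa only [map_add, mul_add] using ha.add hb
  · simpa only [map_neg, mul_neg] using ha.neg

theorem le_co {V : Type} {n : ℕ} {S : Set V} (s s' : (Fin n → V) → ℂ) (A B : ℂ_[2]) {C : ℝ}
    (hC : 0 ≤ C) (h : ∀ a, (∀ j, a j ∈ S) → ‖A * ι (s a) - B * ι (s' a)‖ ≤ C) {c : Ch V}
    (hc : c ∈ sp (Vx S n)) : ‖A * ι (co s c) - B * ι (co s' c)‖ ≤ C := by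
  refine sp_ind (Q := fun c => ‖A * ι (co s c) - B * ι (co s' c)‖ ≤ C) (fun a k => ?_) ?_
    (fun a b ha hb => ?_) (fun a ha => ?_) hc
  · simpa only [co_ofFn] using h a k
  · simpa using hC
  · have := (IsUltrametricDist.norm_add_le_max _ _).trans (max_le ha hb)
    simp only [map_add]
    exact (congrArg _ (by ring)).trans_le this
  · rw [← norm_neg] at ha
    simp only [map_neg]
    exact (congrArg _ (by ring)).trans_le ha

theorem sum_le {μ : Type} [Fintype μ] (g : μ → ℂ_[2]) {C : ℝ} (hC : 0 ≤ C) (h : ∀ i, ‖g i‖ ≤ C) :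
    ‖∑ i, g i‖ ≤ C :=
  IsUltrametricDist.norm_sum_le_of_forall_le_of_nonneg hC fun i _ => h i

theorem hv_add (ψ : AddChar K ℂ) (hψ : Ps ι J ψ) (m n : ℕ) {μ : Type} [Fintype μ] (y : μ → M)
    (g : μ → ℂ) (hy : ∀ i, Fd ι J 0 (y i)) (x : M) (d : 𝓞 M) :
    hv ι J ψ m n y g (x + d) = hv ι J ψ m n y g x := by
  have e : Vi ι J (2 ^ m * (x + d)) ↔ Vi ι J (2 ^ m * x) := by
    have k : Vi ι J ((2 : M) ^ m * d) := Vi_of ι J (2 ^ m * d : 𝓞 M)
    have k' : Vi ι J (-((2 : M) ^ m * d)) := Vi_of ι J (-(2 ^ m * d) : 𝓞 M)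
    exact ⟨fun h => by simpa [mul_add] using Vi_add h k', fun h => by
      simpa [mul_add] using Vi_add h k⟩
  have e' : ∀ i, ψ (-Algebra.trace K M ((x + d) * y i)) = ψ (-Algebra.trace K M (x * y i)) := by
    intro i
    have : ψ (-Algebra.trace K M (d * y i)) = 1 := (hψ _).2 (by simpa using hy i d)
    rw [add_mul, map_add, neg_add, AddChar.map_add_eq_mul, this, mul_one]
  simp only [hv, e, e']

theorem hv_bd (ψ : AddChar K ℂ) (hψ : Ps ι J ψ) (m n : ℕ) {μ : Type} [Fintype μ] (y : μ → M)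
    (g : μ → ℂ) (x : M) (N : ℕ) (hN : N ≠ 0) (hy : ∀ i, ‖ι (J (Algebra.trace K M (N * x * y i)))‖ ≤ 1) :
    ‖hv ι J ψ m n y g x‖ ≤ ∑ i, ‖g i‖ := by
  have e : ∀ i, ‖ψ (-Algebra.trace K M (x * y i))‖ = 1 := fun i => by
    have : ψ (-Algebra.trace K M (x * y i)) ^ N = 1 := by
      rw [← AddChar.map_nsmul_eq_pow]
      refine (hψ _).2 ?_
      have := hy i
      rwa [mul_assoc, ← nsmul_eq_mul, map_nsmul, ← norm_neg, ← map_neg, ← map_neg,
        ← smul_neg] at this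
    exact Complex.norm_eq_one_of_pow_eq_one this hN
  unfold hv
  split_ifs
  · rw [norm_div, norm_pow, Complex.norm_two]
    refine (div_le_self (norm_nonneg _) (one_le_pow₀ one_le_two)).trans ((norm_sum_le _ _).trans ?_)
    simp [e]
  · simp only [norm_zero]
    positivity

theorem core (H : IPL) (hB : Base ι J Ω) {Ωp : ℂ_[2]} {ψ : AddChar K ℂ} (hψ : Ps ι J ψ) {d : ℝ}
    {p : ℕ} {σ : Fin (p + 1) → M →+* ℂ} (hσ : Sg J σ) (U : Subgroup (𝓞 M)ˣ) (ε : Fin p → U)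
    (t : 𝓞 M) (φ : M → ℂ) (B : ℝ) (N m : ℕ) (hN : N ≠ 0)
    (hε : ∀ u : U, ∃! e : Fin p → ℤ, u = ∏ j, ε j ^ e j)
    (hU : ∀ u ∈ U, Algebra.norm K ((u : 𝓞 M) : M) = 1) (hφ : ∀ x, ‖φ x‖ ≤ B)
    (hL : ∀ x, φ x ≠ 0 → Vi ι J (2 ^ m * x) → IsIntegral ℤ (N * x))
    (hg : ∀ x, φ x ≠ 0 → Algebra.trace K M (t * x) ≠ 0)
    (hz : ∀ a : Fin p → U, (∀ j, a j ∈ cb (List.ofFn ε)) → ∃ (e : 𝓞 M) (q : ℕ), MZ φ e q ∧
      ∀ j, Algebra.trace K M ((((a j : (𝓞 M)ˣ) : 𝓞 M) : M) * t * e) = 0)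
    {μ : Type} [Fintype μ] (y : μ → M) (g : μ → ℂ) (hy : ∀ i, Fd ι J 0 (y i))
    (hg1 : ∀ i, ‖ι (g i)‖ ≤ 1)
    (hM : ∀ a : Fin (p + 1) → U, (∀ j, a j ∈ cb (List.ofFn ε)) → ∀ i,
      Mv ι J Ωp ψ d σ (fun j => (((a j : (𝓞 M)ˣ) : 𝓞 M) : M) * t) φ m (y i))
    (hi : ∀ u ∈ U, ∀ x, φ (((u : 𝓞 M) : M) * x) = φ x ∧
      hv ι J ψ m (p + 1) y g (((u : 𝓞 M) : M) * x) = hv ι J ψ m (p + 1) y g x)
    {κ : Type} (r : κ → M) (hr : ∀ i, φ (r i) ≠ 0 ∧ Vi ι J (2 ^ m * r i))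
    (hj : Function.Injective fun z : κ × U => (((z.2 : (𝓞 M)ˣ) : 𝓞 M) : M) * r z.1)
    (hs : ∀ x, φ x ≠ 0 → Vi ι J (2 ^ m * x) → ∃ i, ∃ u ∈ U, x = ((u : 𝓞 M) : M) * r i) :
    ∃ D : ℕ → ℂ → ℂ, (∀ k, 0 < k → DifferentiableOn ℂ (D k) (Hp k) ∧ ∀ s : ℂ,
      2 < (k : ℝ) + 2 * s.re →
        HasSum (fun i => φ (r i) * hv ι J ψ m (p + 1) y g (r i) * tm J k s (r i)) (D k s)) ∧
      ∀ (k k' : ℕ) (ν : ℂ_[2]) (δ : ℝ), 0 < k → 0 < k' → 0 ≤ δ → Nr ι J m k k' y ν δ →
        ‖nv Ωp (p + 1) k (ι (D k 0)) - ν * nv Ωp (p + 1) k' (ι (D k' 0))‖ ≤ δ / √d := by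
  have hN' : (N : M) ≠ 0 := Nat.cast_ne_zero.2 hN
  have hNc : (0 : ℝ) < N := Nat.cast_pos.2 (Nat.pos_of_ne_zero hN)
  let ch : U →* (Fin (p + 1) → ℂ) :=
    { toFun := fun u i => σ i ((u : (𝓞 M)ˣ) : 𝓞 M)
      map_one' := by funext i; simp
      map_mul' := fun a b => by funext i; simp }
  let F : 𝓞 M →+ M :=
    { toFun := fun x => (x : M) / N
      map_zero' := by simp
      map_add' := fun a b => by simp [add_div] }
  have hF : Function.Injective F := fun a b e =>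
    RingOfIntegers.coe_injective ((div_left_inj' hN').1 e)
  have hFs : ∀ x : M, IsIntegral ℤ (N * x) → ∃ z, x = F z := fun x k =>
    ⟨⟨N * x, k⟩, (mul_div_cancel_left₀ x hN').symm⟩
  have hFu : ∀ (u : U) (x : 𝓞 M), F (u • x) = (((u : (𝓞 M)ˣ) : 𝓞 M) : M) * F x := fun u x => by
    show ((((u : (𝓞 M)ˣ) : 𝓞 M) * x : 𝓞 M) : M) / N = _ * ((x : M) / N)
    push_cast
    ring
  let em : 𝓞 M →+ (Fin (p + 1) → ℂ) :=
    { toFun := fun x i => σ i (F x)
      map_zero' := by funext i; simp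
      map_add' := fun a b => by funext i; simp }
  set h := hv ι J ψ m (p + 1) y g with hh
  have hV : ∀ x, h x ≠ 0 → Vi ι J (2 ^ m * x) := fun x k => not_not.1 fun n => k (if_neg n)
  choose r' hr' using fun i => hFs (r i) (hL _ (hr i).1 (hr i).2)
  obtain ⟨η, hη, H⟩ := H p U ch ε (fun u => by
      rw [show ∏ i, ch u i = _ from (hσ.both _).1, hU _ u.2, map_one]) hε (fun R => by
      refine Set.Finite.of_finite_image (f := fun u : U => ((u : (𝓞 M)ˣ) : 𝓞 M))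
        ((hσ.fin hB R).subset ?_) (Units.val_injective.comp Subtype.val_injective).injOn
      rintro _ ⟨u, hu, rfl⟩ i
      exact (norm_le_pi_norm (ch u) i).trans hu)
  have key := fun k => H (𝓞 M) em (fun i => σ i t) (fun x => φ (F x) * h (F x))
    (B * ∑ i, ‖g i‖) (1 / N) κ r' k
    (fun a b e => hF ((σ 0).injective (congrFun e 0)))
    (fun u x => by funext i; show σ i (F (u • x)) = σ i _ * σ i _; rw [hFu, map_mul])
    (fun R => (hσ.fin hB (R * N)).subset fun x hx i => by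
      have : ‖σ i ((x : M) / N)‖ ≤ R := (norm_le_pi_norm (em x) i).trans hx
      rwa [map_div₀, map_natCast, norm_div, Complex.norm_natCast, div_le_iff₀ hNc] at this)
    (fun x => by
      rw [norm_mul]
      refine mul_le_mul (hφ _) (hv_bd ψ hψ _ _ _ _ _ N hN fun i => ?_) (norm_nonneg _)
        ((norm_nonneg _).trans (hφ 0))
      have := hy i x
      rwa [pow_zero, ← mul_div_cancel₀ (x : M) hN'] at this)
    (fun u x => by rw [hFu, (hi _ u.2 _).1, (hi _ u.2 _).2]) (by positivity)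
    (fun x k => by
      have k1 := hg _ (left_ne_zero_of_mul k)
      refine ⟨fun i => (map_ne_zero (σ i)).2 fun e : F x = 0 => k1 (by
        rw [e, mul_zero, map_zero]), ?_⟩
      have e : Algebra.trace K M (t * F x) = Algebra.trace K M ((t * x : 𝓞 M) : M) / N := by
        rw [eq_div_iff (Nat.cast_ne_zero.2 hN), mul_comm, ← nsmul_eq_mul, ← map_nsmul,
          nsmul_eq_mul]
        congr 1
        show N * (t * ((x : M) / N)) = _
        push_cast
        field_simp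
      rw [show lf _ (em x) = _ from hσ.lf t (F x), e, map_div₀, map_natCast, norm_div,
        Complex.norm_natCast]
      exact div_le_div_of_nonneg_right (one_le hB (tr_int _) fun k2 => k1 (by
        rw [e, k2, zero_div])) hNc.le)
    (fun a ha => by
      obtain ⟨e, q, k1, k2⟩ := hz a ha
      have e1 : F (N * e) = e := by
        show (((N : 𝓞 M) * e : 𝓞 M) : M) / N = _
        push_cast
        exact mul_div_cancel_left₀ _ hN'
      refine ⟨N * e, q, ⟨k1.1, fun x => ?_⟩, fun j => ?_⟩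
      · have : ∀ s : ℕ, h (F x + s • (e : M)) = h (F x) := fun s => by
          simpa using hv_add ψ hψ m (p + 1) y g hy (F x) (s • e)
        simp only [map_add, map_nsmul, e1, this, ← sum_mul, k1.2, zero_mul]
      · have := hσ.lf ((((a j : (𝓞 M)ˣ) : 𝓞 M) : M) * t) e
        rw [k2 j, map_zero] at this
        rw [← this]
        simp only [lf, Pi.mul_apply, map_mul]
        exact sum_congr rfl fun i _ => by
          rw [show em (N * e) i = σ i e from congrArg _ e1]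
          rfl)
    (fun a b e => hj (by
      have := congrArg F e
      simp only [hFu, ← hr'] at this
      exact this))
    (fun x k => by
      obtain ⟨i, u, hu, e⟩ := hs _ (left_ne_zero_of_mul k) (hV _ (right_ne_zero_of_mul k))
      exact ⟨i, ⟨u, hu⟩, hF (by rw [hFu, ← hr', e])⟩)
  choose D hD using key
  choose S hS using hM
  let sv : ℕ → (Fin (p + 1) → U) → ℂ := fun k a => if ha : ∀ j, a j ∈ cb (List.ofFn ε) then
    (∑ i, g i * S a ha i k) / 2 ^ (m * (p + 1)) else 0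
  have hc : cyc (List.ofFn ε) ∈ sp (Vx (cb (List.ofFn ε)) (p + 1)) := by
    simpa using cyc_cb (List.ofFn ε)
  have hv0 : ∀ k (hk : 0 < k), η * (-1) ^ ((p + 1) * (k - 1)) * D k hk 0 =
      co (sv k) (cyc (List.ofFn ε)) := fun k hk => by
    have k0 : Reg (fun x : M => φ x * h x * co (fun a : Fin (p + 1) → U =>
        ck k (fun j i => σ i ((((a j : (𝓞 M)ˣ) : 𝓞 M) : M) * t)) fun i => σ i x)
        (cyc (List.ofFn ε))) _ := Reg.ext F hF 0 (fun x k => by
      have k1 := left_ne_zero_of_mul k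
      simpa using hFs x (hL x (left_ne_zero_of_mul k1) (hV _ (right_ne_zero_of_mul k1))))
      ((hD k hk).2.2.congr (fun x => by simp only [zero_add, map_mul]; rfl) rfl)
    refine k0.uniq (reg_co _ _ _ (fun a ha => ?_) hc)
    refine ((Reg.sum univ fun i _ => (((hS a ha i).1 k hk).smul (g i))).smul
      ((2 : ℂ) ^ (m * (p + 1)))⁻¹).congr (fun x => ?_) (by simp only [sv, dif_pos ha]; ring)
    simp only [hh, hv]
    split_ifs
    · simp only [div_eq_mul_inv, sum_mul, mul_sum]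
      exact sum_congr rfl fun i _ => by ring
    · simp
  refine ⟨fun k => if hk : 0 < k then D k hk else 0, fun k hk => ?_, fun k k' ν δ hk hk' hδ hn => ?_⟩
  · simp only [dif_pos hk]
    refine ⟨(hD k hk).1, fun s hs => ((hD k hk).2.1 s hs).congr_fun fun i => ?_⟩
    rw [show ∏ j, em (r' i) j = _ from (hσ.both _).1, ← hr', tm]
    ring
  · simp only [dif_pos hk, dif_pos hk']
    have e : ∀ k (hk : 0 < k), nv Ωp (p + 1) k (ι (D k hk 0)) = ι η *
        ((((k - 1).factorial : ℂ_[2]) / Ωp ^ k) ^ (p + 1) * ι (co (sv k) (cyc (List.ofFn ε)))) := by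
      intro k hk
      have : ι η * ι η = 1 := by rcases hη with rfl | rfl <;> simp
      rw [← hv0 k hk, nv, map_mul, map_mul, map_pow, map_neg, map_one, mul_div_assoc, mul_pow,
        ← pow_mul, mul_comm (k - 1)]
      linear_combination (-((-1) ^ ((p + 1) * (k - 1)) *
        (((k - 1).factorial : ℂ_[2]) / Ωp ^ k) ^ (p + 1) * ι (D k hk 0))) * this
    have e' : ‖ι η‖ = 1 := by rcases hη with rfl | rfl <;> simp
    rw [e, e, mul_left_comm ν, ← mul_sub, norm_mul, e', one_mul, ← mul_assoc ν]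
    refine le_co _ _ _ _ (by positivity) (fun a ha => ?_) hc
    have h2 : (0 : ℝ) < ‖(2 : ℂ_[2])‖ ^ (m * (p + 1)) :=
      pow_pos (norm_pos_iff.2 two_ne_zero) _
    simp only [sv, dif_pos ha, map_div₀, map_sum, map_mul, map_pow, map_ofNat]
    rw [← mul_div_assoc, ← mul_div_assoc, ← sub_div, norm_div, norm_pow, div_le_iff₀ h2, mul_sum,
      mul_sum, ← sum_sub_distrib]
    refine sum_le _ (by positivity) fun i => ?_
    have := mul_le_mul (hg1 i) ((hS a ha i).2 k k' ν δ hk hk' fun _ y' k => hn i y' k)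
      (norm_nonneg _) zero_le_one
    rw [← norm_mul] at this
    exact (congrArg _ (by ring)).trans_le (this.trans_eq (by ring))

end Vale.Agent.P004C.As
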