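import Vale.Agent.P004C.As.Sm

/-!
# P004 C, block AS: the local component of a character which is tamely ramified at an inert prime
-/

set_option linter.unusedSectionVars false

open NumberField Module
open scoped Classical

noncomputable section

namespace Vale.Agent.P004C.As.Cr

variable {K : Type} [Field K] [NumberField K] {ι : ℂ →+* ℂ_[2]} {J : K →+* ℂ}
  {M : Type} [Field M] [NumberField M] [Algebra K M]

theorem crt {f Q : Ideal (𝓞 M)} (h : f ⊔ Q = ⊤) (x : 𝓞 M) : ∃ y, y - 1 ∈ f ∧ y - x ∈ Q := by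
  obtain ⟨a, ha, b, hb, e⟩ := Submodule.mem_sup.1 ((Ideal.eq_top_iff_one _).1 h)
  refine ⟨b + a * x, ?_, ?_⟩
  · have : b + a * x - 1 = a * (x - 1) := by linear_combination e
    rw [this]
    exact f.mul_mem_right _ ha
  · have : b + a * x - x = b * (1 - x) := by linear_combination x * e
    rw [this]
    exact Q.mul_mem_right _ hb

theorem one_mul_mem {f : Ideal (𝓞 M)} {x y : 𝓞 M} (hx : x - 1 ∈ f) (hy : y - 1 ∈ f) :
    x * y - 1 ∈ f := by
  have : x * y - 1 = (x - 1) * y + (y - 1) := by ring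
  rw [this]
  exact f.add_mem (f.mul_mem_right _ hx) hy

theorem cube {P : Ideal (𝓞 M)} (hP : P.IsMaximal) (h4 : Ideal.absNorm P = 4) {y : 𝓞 M}
    (hy : y ∉ P) : y * y * y - 1 ∈ P := by
  let := Ideal.Quotient.field P
  have c : Nat.card (𝓞 M ⧸ P) = 4 := by
    rw [← h4, Ideal.absNorm_apply, Submodule.cardQuot_apply]
  have : Finite (𝓞 M ⧸ P) := Nat.finite_of_card_ne_zero (by omega)
  let := Fintype.ofFinite (𝓞 M ⧸ P)
  have := FiniteField.pow_card_sub_one_eq_one (Ideal.Quotient.mk P y)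
    (by rwa [Ne, Ideal.Quotient.eq_zero_iff_mem])
  rw [← Nat.card_eq_fintype_card, c] at this
  rw [← Ideal.Quotient.eq_zero_iff_mem, map_sub, map_mul, map_mul, map_one, ← this]
  ring

theorem nne {x : M} (hx : x ≠ 0) : J (Algebra.norm K x) ≠ 0 := by
  rw [map_ne_zero]
  exact Algebra.norm_ne_zero_iff.2 hx

variable (J) in
/-- the local component -/
def W (k : ℕ) (a : Ideal (𝓞 M) → ℂ) (y : 𝓞 M) : ℂ :=
  a (Ideal.span {y}) * J (Algebra.norm K (y : M)) ^ k

variable {k : ℕ} {f P : Ideal (𝓞 M)} {a : Ideal (𝓞 M) → ℂ}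

theorem W_mul (h : HC J k f a) (y y' : 𝓞 M) : W J k a (y * y') = W J k a y * W J k a y' := by
  unfold W
  rw [← Ideal.span_singleton_mul_span_singleton, h.mul]
  push_cast
  rw [map_mul, map_mul]
  ring

theorem W_one (h : HC J k (f * P) a) (hf : f ⊔ P = ⊤) (hP : P.IsMaximal) {y : 𝓞 M}
    (h1 : y - 1 ∈ f) (h2 : y - 1 ∈ P) : W J k a y = 1 := by
  have y0 : y ≠ 0 := by
    rintro rfl
    exact hP.ne_top ((Ideal.eq_top_iff_one _).2 (by simpa using h2))
  unfold W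
  rw [h.prn y y0 (by rw [Ideal.mul_eq_inf_of_coprime hf]; exact ⟨h1, h2⟩), ← mul_pow,
    inv_mul_cancel₀ (nne (by exact_mod_cast y0)), one_pow]

theorem W_zero (h : HC J k (f * P) a) (hP : P.IsMaximal) {y : 𝓞 M} (hy : y ∈ P) :
    W J k a y = 0 := by
  unfold W
  rw [(h.zero _).2 (Or.inr fun e => hP.ne_top (top_le_iff.1 (e ▸ sup_le
    ((Ideal.span_singleton_le_iff_mem _).2 hy) Ideal.mul_le_right))), zero_mul]

theorem W_cube (h : HC J k (f * P) a) (hf : f ⊔ P = ⊤) (hP : P.IsMaximal)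
    (h4 : Ideal.absNorm P = 4) {y : 𝓞 M} (h1 : y - 1 ∈ f) (h2 : y ∉ P) : W J k a y ^ 3 = 1 := by
  rw [← W_one h hf hP (one_mul_mem (one_mul_mem h1 h1) h1) (cube hP h4 h2), W_mul h, W_mul h]
  ring

theorem W_congr (h : HC J k (f * P) a) (hf : f ⊔ P = ⊤) (hP : P.IsMaximal)
    (h4 : Ideal.absNorm P = 4) {y y' : 𝓞 M} (h1 : y - 1 ∈ f) (h1' : y' - 1 ∈ f) (h2 : y ∉ P)
    (h3 : y - y' ∈ P) : W J k a y = W J k a y' := by
  have e1 := W_one h hf hP (one_mul_mem (one_mul_mem h1 h1) h1) (cube hP h4 h2)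
  have e2 := W_one h hf hP (one_mul_mem (one_mul_mem h1 h1) h1') (by
    have : y * y * y' - 1 = y * y * y - 1 - y * y * (y - y') := by ring
    rw [this]
    exact P.sub_mem (cube hP h4 h2) (P.mul_mem_left _ h3))
  rw [W_mul h] at e1 e2
  exact mul_left_cancel₀ (left_ne_zero_of_mul_eq_one e1) (e1.trans e2.symm)

theorem root_norm {u : ℂ} (hu : u ^ 3 = 1) : ‖ι u‖ = 1 := by
  have : ‖ι u‖ ^ 3 = 1 := by rw [← norm_pow, ← map_pow, hu, map_one, norm_one]
  exact (pow_eq_one_iff_of_nonneg (norm_nonneg _) (by norm_num)).1 this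

theorem root_eq {u v : ℂ} (hu : u ^ 3 = 1) (hv : v ^ 3 = 1) (h : ‖ι (u - v)‖ < 1) : u = v := by
  by_contra ne
  have e : 3 * u ^ 2 = (u - v) * (v + 2 * u) := by
    have : (u - v) * (u ^ 2 + u * v + v ^ 2) = 0 := by linear_combination hu - hv
    have := (mul_eq_zero.1 this).resolve_left (sub_ne_zero.2 ne)
    linear_combination this
  have e' := congrArg (fun x => ‖ι x‖) e
  have n3 : ‖(3 : ℂ_[2])‖ = 1 := by simpa using n_odd (l := 3) (by decide)
  simp only [map_mul, norm_mul, map_pow, norm_pow, root_norm hu, map_ofNat, n3] at e'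
  have : ‖ι (v + 2 * u)‖ ≤ 1 := by
    rw [map_add]
    refine (IsUltrametricDist.norm_add_le_max _ _).trans (max_le (root_norm hv).le ?_)
    rw [map_mul, norm_mul, root_norm hu, map_ofNat, n_two]
    norm_num
  nlinarith [norm_nonneg (ι (u - v)), norm_nonneg (ι (v + 2 * u))]

/-- the residue field at `v` has two elements -/
theorem res_two (val : VAL) (vaq : VAQ) {Ω : ℝ} (hB : Base ι J Ω) (t : 𝓞 K)
    (ht : ‖ι (J t)‖ = 1) : ‖ι (J t) - 1‖ < 1 := by
  obtain ⟨-, -, -, q4, -⟩ := vaq K ι J Ω hB K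
  have v1 := ((val K ι J Ω hB).2.2 K).1
  have lt : ∀ s : 𝓞 K, s ∈ Qm ι J K 1 → ‖ι (J s)‖ < 1 := by
    intro s hs
    have hs' : Vi ι J ((s : K) / 2 ^ 1) := hs
    have := (v1 ((s : K) / 2 ^ 1)).1 hs'
    rw [map_div₀, map_div₀, norm_div, pow_one, map_ofNat, map_ofNat, n_two] at this
    linarith [(div_le_iff₀ (by norm_num)).1 this]
  rw [finrank_self, pow_one, Ideal.absNorm_apply, Submodule.cardQuot_apply] at q4
  obtain ⟨y, -, hy⟩ := (Nat.card_eq_two_iff' (0 : 𝓞 K ⧸ Qm ι J K 1)).1 q4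
  have e1 := hy (Ideal.Quotient.mk _ t) fun h =>
    (lt t (Ideal.Quotient.eq_zero_iff_mem.1 h)).ne ht
  have e2 := hy (Ideal.Quotient.mk _ 1) fun h =>
    (lt 1 (Ideal.Quotient.eq_zero_iff_mem.1 h)).ne (by simp)
  simpa using lt (t - 1) (Ideal.Quotient.eq.1 (e1.trans e2.symm))

theorem norm_int (x : 𝓞 M) : ∃ t : 𝓞 K, (t : K) = Algebra.norm K (x : M) :=
  ⟨⟨_, Algebra.isIntegral_norm K x.isIntegral_coe⟩, rfl⟩

end Vale.Agent.P004C.As.Cr
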