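import Vale.Agent.P004C.St
import Vale.Agent.P004C.An.Tx

/-!
# P004 C, block AS: words for the passage from ideals to lattices
-/

set_option linter.unusedSectionVars false

open NumberField Module
open scoped Classical

noncomputable section

namespace Vale.Agent.P004C.As

open An

section

variable {K : Type} [Field K] [NumberField K] (ι : ℂ →+* ℂ_[2]) (J : K →+* ℂ)

/-- only divisible by `v` -/
def Vp (s : 𝓞 K) : Prop := ∀ s' : 𝓞 K, ‖ι (J s')‖ = 1 → IsCoprime s s'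

/-- the additive character with kernel the elements integral at `v` -/
def Ps (ψ : AddChar K ℂ) : Prop := ∀ x, ψ x = 1 ↔ ‖ι (J x)‖ ≤ 1

variable {M : Type} [Field M] [NumberField M] [Algebra K M]

/-- in the ideal `A` away from `v` -/
def Af (A : Ideal (𝓞 M)) (x : M) : Prop :=
  ∃ s : 𝓞 K, Vp ι J s ∧ ∃ y ∈ A, algebraMap K M s * x = y

/-- the dual lattices at `v` -/
def Fd (m : ℕ) (y : M) : Prop :=
  ∀ r : 𝓞 M, ‖ι (J (Algebra.trace K M (r * y)))‖ ≤ ‖(2 : ℂ_[2])‖ ^ m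

/-- the embeddings above `J` -/
structure Sg {n : ℕ} (σ : Fin n → M →+* ℂ) : Prop where
  rk : finrank K M = n
  inj : Function.Injective σ
  ext : ∀ i x, σ i (algebraMap K M x) = J x

/-- test functions prime to `v` -/
def Tf (φ : M → ℂ) : Prop := ∃ N : 𝓞 K, ‖ι (J N)‖ = 1 ∧
  (∀ x, φ x ≠ 0 → Af ι J ⊤ (algebraMap K M N * x)) ∧
  ∀ x w, Af ι J ⊤ w → φ (x + algebraMap K M N * w) = φ x

/-- `φ` is good for the vertices `t` -/
def Gd {n : ℕ} (φ : M → ℂ) (t : Fin n → M) : Prop := ∀ j, ∃ (d : 𝓞 M) (q : ℕ), Odd q ∧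
  (∀ i, i ≠ j → Algebra.trace K M (t i * d) = 0) ∧ MZ φ d q ∧
  ∀ (x : M) (w : K), Af ι J (⊤ : Ideal (𝓞 K)) w →
    φ (x + q * algebraMap K M w * d) = φ x ∧
    (φ x ≠ 0 → Algebra.trace K M (t j * (x + algebraMap K M w * d)) ≠ 0)

theorem Vi_of (y : 𝓞 M) : Vi ι J (y : M) :=
  ⟨1, by simp, by simpa using y.isIntegral_coe⟩

variable {ι J} in
theorem Vi_mul {x y : M} (hx : Vi ι J x) (hy : Vi ι J y) : Vi ι J (x * y) := by
  obtain ⟨s, a, b⟩ := hx
  obtain ⟨t, c, d⟩ := hy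
  refine ⟨s * t, by simp [a, c], ?_⟩
  have e : algebraMap K M ((s * t : 𝓞 K) : K) * (x * y) =
      algebraMap K M s * x * (algebraMap K M t * y) := by
    show algebraMap K M ((s : K) * (t : K)) * _ = _
    rw [map_mul]
    ring
  rw [e]
  exact b.mul d

theorem int_map (s : 𝓞 K) : IsIntegral ℤ (algebraMap K M s) :=
  s.isIntegral_coe.map (algebraMap K M).toIntAlgHom

variable {ι J} in
theorem Vi_add {x y : M} (hx : Vi ι J x) (hy : Vi ι J y) : Vi ι J (x + y) := by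
  obtain ⟨s, a, b⟩ := hx
  obtain ⟨t, c, d⟩ := hy
  refine ⟨s * t, by simp [a, c], ?_⟩
  have e : algebraMap K M ((s * t : 𝓞 K) : K) * (x + y) = algebraMap K M t *
      (algebraMap K M s * x) + algebraMap K M s * (algebraMap K M t * y) := by
    show algebraMap K M ((s : K) * (t : K)) * _ = _
    rw [map_mul]
    ring
  rw [e]
  exact ((int_map t).mul b).add ((int_map s).mul d)

/-- the ideal `v ^ m` -/
def Qm (M : Type) [Field M] [NumberField M] [Algebra K M] (m : ℕ) : Ideal (𝓞 M) where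
  carrier := {y | Vi ι J ((y : M) / 2 ^ m)}
  add_mem' := fun a b => by simpa [add_div] using Vi_add a b
  zero_mem' := by simpa using Vi_of ι J (0 : 𝓞 M)
  smul_mem' := fun c y a => by simpa [mul_div_assoc] using Vi_mul (Vi_of ι J c) a

/-- the Fourier transform of the test function at `v` -/
def hv (ψ : AddChar K ℂ) (m n : ℕ) {μ : Type} [Fintype μ] (y : μ → M) (g : μ → ℂ) (x : M) : ℂ :=
  if Vi ι J (2 ^ m * x) then (∑ i, g i * ψ (-Algebra.trace K M (x * y i))) / 2 ^ (m * n) else 0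

/-- the term of the lattice series -/
def tm (k : ℕ) (s : ℂ) (x : M) : ℂ :=
  ((‖J (Algebra.norm K x)‖ ^ 2 : ℝ) : ℂ) ^ (-s) / J (Algebra.norm K x) ^ k

/-- `N ^ (k - 1)` is within `δ` of `ν N ^ (k' - 1)` on the discs -/
def Nr (m k k' : ℕ) {μ : Type} (y : μ → M) (ν : ℂ_[2]) (δ : ℝ) : Prop :=
  ∀ i y', Fd ι J m (y' - y i) → ‖ι (J (Algebra.norm K y')) ^ (k - 1) -
    ν * ι (J (Algebra.norm K y')) ^ (k' - 1)‖ ≤ δ

end

section

variable {M : Type} [Field M] [NumberField M]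

/-- `I = x I'` with `x ≡ 1` modulo `f` -/
def E (f : Ideal (𝓞 M)) (x : M) (I I' : Ideal (𝓞 M)) : Prop := ∃ y z : 𝓞 M, y - 1 ∈ f ∧ z - 1 ∈ f ∧
  y ≠ 0 ∧ z ≠ 0 ∧ x * z = y ∧ Ideal.span {z} * I = Ideal.span {y} * I'

/-- non zero and prime to `f` -/
def Cp (f I : Ideal (𝓞 M)) : Prop := I ≠ ⊥ ∧ I ⊔ f = ⊤

/-- the smoothing -/
def xi (c : Ideal (𝓞 M)) (l : ℕ) (I : Ideal (𝓞 M)) : ℂ := if c ∣ I then 1 - l else 1

/-- in `A[1 / N]` -/
def Lf (N : ℕ) (A : Ideal (𝓞 M)) (x : M) : Prop := ∃ a : ℕ, ∃ y ∈ A, (N : M) ^ a * x = (y : 𝓞 M)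

/-- the normalised value -/
def nv (Ωp : ℂ_[2]) (n k : ℕ) (z : ℂ_[2]) : ℂ_[2] :=
  ((-1) ^ (k - 1) * (k - 1).factorial / Ωp ^ k) ^ n * z

/-- the half plane of holomorphy -/
def Hp (k : ℕ) : Set ℂ := {s | 0 < (k : ℝ) + 2 * s.re}

end

end Vale.Agent.P004C.As
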