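import Vale.Agent.P004C.As.Emb
import Vale.Agent.P004C.As.Sm
import Vale.Agent.P004C.Ms.St

/-!
# P004 C, block AS: ideals of one ray class and points of one coset
-/

set_option linter.unusedSectionVars false

open NumberField Module Finset Ideal
open scoped Classical

noncomputable section

namespace Vale.Agent.P004C.As.Lc

open An

variable {K : Type} [Field K] [NumberField K] {ι : ℂ →+* ℂ_[2]} {J : K →+* ℂ} {Ω : ℝ}
  {M : Type} [Field M] [NumberField M] [Algebra K M] {f A A' Q B I c : Ideal (𝓞 M)} {x x' : M}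

theorem one_mul' {a b : 𝓞 M} (ha : a - 1 ∈ f) (hb : b - 1 ∈ f) : a * b - 1 ∈ f := by
  have := f.add_mem (f.mul_mem_left b ha) hb
  rwa [show b * (a - 1) + (b - 1) = a * b - 1 by ring] at this

theorem E_ne (h : E f x A Q) : x ≠ 0 := by
  obtain ⟨y, z, -, -, h1, -, h2, -⟩ := h
  rintro rfl
  exact h1 (RingOfIntegers.coe_injective (by simpa using h2.symm))

theorem E_smul (h : E f x A Q) (u : (𝓞 M)ˣ) (hu : (u : 𝓞 M) - 1 ∈ f) :
    E f (((u : 𝓞 M) : M) * x) A Q := by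
  obtain ⟨y, z, a1, a2, a3, a4, a5, a6⟩ := h
  refine ⟨u * y, z, one_mul' hu a1, a2, mul_ne_zero u.ne_zero a3, a4, ?_, ?_⟩
  · rw [mul_assoc, a5]; rfl
  · rw [a6, span_singleton_mul_left_unit u.isUnit]

theorem E_uniq (h : E f x A Q) (h' : E f x A' Q) : A = A' := by
  obtain ⟨y, z, -, -, -, a4, a5, a6⟩ := h
  obtain ⟨y', z', -, -, -, b4, b5, b6⟩ := h'
  have e : z * y' = z' * y := RingOfIntegers.coe_injective (by
    simp only [map_mul]
    linear_combination (exp := 1) (z' : M) * a5 - (z : M) * b5)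
  refine mul_left_cancel₀ (a := span {z'} * span {z}) (by simp [a4, b4]) ?_
  rw [mul_assoc, a6, mul_comm (span {z'}) (span {z}), mul_assoc, b6, ← mul_assoc, ← mul_assoc,
    span_singleton_mul_span_singleton, span_singleton_mul_span_singleton, e]

theorem E_unit (hQ : Q ≠ ⊥) (h : E f x A Q) (h' : E f x' A Q) :
    ∃ u : (𝓞 M)ˣ, (u : 𝓞 M) - 1 ∈ f ∧ x' = ((u : 𝓞 M) : M) * x := by
  obtain ⟨y, z, a1, a2, -, a4, a5, a6⟩ := h
  obtain ⟨y', z', b1, b2, -, b4, b5, b6⟩ := h'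
  have e : span {z' * y} = span {z * y'} := mul_right_cancel₀ hQ (by
    rw [← span_singleton_mul_span_singleton, ← span_singleton_mul_span_singleton, mul_assoc,
      mul_assoc, ← a6, ← b6, mul_left_comm])
  obtain ⟨u, hu⟩ := span_singleton_eq_span_singleton.1 e
  refine ⟨u, ?_, ?_⟩
  · have := f.sub_mem (one_mul' a2 b1) (f.mul_mem_left u (one_mul' b2 a1))
    rwa [← hu, show z' * y * u - 1 - u * (z' * y - 1) = u - 1 by ring] at this
  · have k : (z' : M) * y * (u : 𝓞 M) = z * y' := by exact_mod_cast congrArg (algebraMap _ M) hu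
    refine mul_right_cancel₀ (b := (z : M) * z') (by simp [a4, b4]) ?_
    linear_combination (z : M) * b5 - k - ((u : 𝓞 M) : M) * z' * a5

theorem nm_sq (hB : Base ι J Ω) (y : 𝓞 M) :
    (absNorm (span {y}) : ℝ) = ‖J (Algebra.norm K (y : M))‖ ^ 2 := by
  have _ := fd K M
  have e := congrArg (‖·‖) (Algebra.norm_eq_prod_embeddings ℚ ℂ (Algebra.norm K (y : M)))
  have e1 : ∀ τ : K →ₐ[ℚ] ℂ, ‖τ (Algebra.norm K (y : M))‖ = ‖J (Algebra.norm K (y : M))‖ := by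
    intro τ
    rcases two_emb hB τ with k | k
    · rw [← k]; rfl
    · rw [← Complex.norm_conj (J _), ← ComplexEmbedding.conjugate_coe_eq, ← k]; rfl
  simp only [norm_prod, e1, prod_const, card_univ, AlgHom.card, hB.two, Algebra.norm_norm] at e
  rw [← e, absNorm_span_singleton, ← Algebra.coe_norm_int]
  simp [Nat.cast_natAbs]

theorem E_norm (hB : Base ι J Ω) (h : E f x A Q) :
    (absNorm A : ℝ) = ‖J (Algebra.norm K x)‖ ^ 2 * absNorm Q := by
  obtain ⟨y, z, -, -, -, a4, a5, a6⟩ := h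
  have e : (absNorm (span {z}) : ℝ) * absNorm A = absNorm (span {y}) * absNorm Q := by
    exact_mod_cast (map_mul _ _ _).symm.trans ((congrArg absNorm a6).trans (map_mul _ _ _))
  have h0 : (absNorm (span {z}) : ℝ) ≠ 0 := by simpa [absNorm_eq_zero_iff] using a4
  refine mul_left_cancel₀ h0 ?_
  rw [e, nm_sq hB, nm_sq hB, ← a5, map_mul, map_mul, norm_mul]
  ring

theorem E_mem (h : E f x A Q) {q : 𝓞 M} (hq : q ∈ Q) :
    ∃ g ∈ A, (q : M) * x = (g : 𝓞 M) ∧ g - q ∈ f ∧ span {g} * Q = A * span {q} := by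
  obtain ⟨y, z, a1, a2, -, a4, a5, a6⟩ := h
  obtain ⟨g, g1, g2⟩ := mem_span_singleton_mul.1 (a6 ▸ mul_mem_mul (mem_span_singleton_self y) hq)
  refine ⟨g, g1, ?_, ?_, ?_⟩
  · have k : (z : M) * g = y * q := by exact_mod_cast congrArg (algebraMap _ M) g2
    refine mul_right_cancel₀ (b := (z : M)) (by simp [a4]) ?_
    linear_combination (q : M) * a5 - k
  · have := f.sub_mem (f.mul_mem_left q a1) (f.mul_mem_left g a2)
    rwa [show q * (y - 1) - g * (z - 1) = g - q + (y * q - z * g) by ring, g2, sub_self,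
      add_zero] at this
  · refine mul_left_cancel₀ (a := span {z}) (by simp [a4]) ?_
    rw [← mul_assoc, ← mul_assoc, a6, span_singleton_mul_span_singleton, g2,
      ← span_singleton_mul_span_singleton]
    ring

/-- the image of an integer of `K` -/
abbrev ok (M : Type) [Field M] [Algebra K M] (s : 𝓞 K) : 𝓞 M := algebraMap (𝓞 K) (𝓞 M) s

theorem ok_coe (s : 𝓞 K) : ((ok M s : 𝓞 M) : M) = algebraMap K M s := rfl

/-- the coset -/
def Co (π : 𝓞 K) (A : Ideal (𝓞 M)) (x₀ : 𝓞 M) (x : M) : Prop :=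
  ∃ a : ℕ, ∃ y ∈ A, algebraMap K M π ^ a * (x - x₀) = (y : 𝓞 M)

variable {π : 𝓞 K} {τ : ℕ → K} {ψ : K → ℂ} {x₀ : 𝓞 M} {m : ℕ}

theorem pi_mem (h : Ms.Ar ι J π τ ψ) (m : ℕ) : ∃ a, ok M π ^ a ∈ Qm ι J M m := by
  obtain ⟨a, ha⟩ := exists_pow_lt_of_lt_one (pow_pos (norm_pos_iff.2 (two_ne_zero' ℂ_[2])) m) h.p1
  obtain ⟨s, h1, h2⟩ := h.loc ((π : K) ^ a / 2 ^ m) (by
    simp only [map_div₀, map_pow, map_ofNat, norm_div, norm_pow]
    exact div_le_one_of_le₀ ha.le (by positivity))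
  refine ⟨a, s, h1, ?_⟩
  have := h2.map (algebraMap K M).toIntAlgHom
  simpa [ok_coe, map_ofNat] using this

theorem two_mem (m : ℕ) : (2 : 𝓞 M) ^ m ∈ Qm ι J M m := by
  show Vi ι J ((((2 : 𝓞 M) ^ m : 𝓞 M) : M) / 2 ^ m)
  have : (((2 : 𝓞 M) ^ m : 𝓞 M) : M) / 2 ^ m = (1 : 𝓞 M) := div_self (pow_ne_zero _ two_ne_zero)
  rw [this]
  exact Vi_of ι J 1

theorem of_E (h : Ms.Ar ι J π τ ψ) (hB : B ⊔ f = ⊤) (h0 : x₀ ∈ B) (h1 : x₀ - 1 ∈ f)
    (k : E f x (I * B) (Qm ι J M m)) : IsIntegral ℤ (2 ^ m * x) ∧ Co π (f * B) x₀ x := by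
  obtain ⟨g, -, g2, -⟩ := E_mem k (two_mem m)
  obtain ⟨a, ha⟩ := pi_mem (M := M) h m
  obtain ⟨g', e1, e2, e3, -⟩ := E_mem k ha
  refine ⟨by rw [show (2 : M) ^ m * x = g from g2]; exact g.isIntegral_coe, a,
    g' - ok M π ^ a * x₀, ?_, ?_⟩
  · rw [mul_comm f, mul_eq_inf_of_isCoprime (isCoprime_iff_sup_eq.2 hB)]
    refine ⟨B.sub_mem (mul_le_right e1) (B.mul_mem_left _ h0), ?_⟩
    have := f.sub_mem e3 (f.mul_mem_left (ok M π ^ a) h1)
    rwa [show g' - ok M π ^ a - ok M π ^ a * (x₀ - 1) = g' - ok M π ^ a * x₀ by ring] at this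
  · show _ = (g' : M) - algebraMap K M π ^ a * x₀
    rw [mul_sub, ← e2]
    rfl

theorem cop_dvd {C : Ideal (𝓞 M)} (h : I ∣ C) (k : C ⊔ f = ⊤) : I ⊔ f = ⊤ :=
  top_le_iff.1 (k.ge.trans (sup_le_sup_right (le_of_dvd h) _))

theorem to_E (h : Ms.Ar ι J π τ ψ) (hf : f ≠ ⊤) (pf : Pv ι J f) (pB : Pv ι J B)
    (hQ : Cp f (Qm ι J M m)) (h0 : x₀ ∈ B) (h1 : x₀ - 1 ∈ f) (k : Co π (f * B) x₀ x)
    (hv : Vi ι J (2 ^ m * x)) : ∃ I, Cp f I ∧ E f x (I * B) (Qm ι J M m) := by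
  obtain ⟨a, y₀, k1, k2⟩ := k
  obtain ⟨s, s1, s2⟩ := pf
  obtain ⟨s', s3, s4⟩ := pB
  obtain ⟨α, β, e⟩ := (h.cop s s1).pow_left (m := a)
  have e' : ok M α * ok M π ^ a + ok M β * ok M s = 1 := by
    simpa using congrArg (algebraMap (𝓞 K) (𝓞 M)) e
  have z1 : ok M α * ok M π ^ a - 1 ∈ f := by
    rw [show ok M α * ok M π ^ a - 1 = -ok M β * ok M s by linear_combination e']
    exact f.mul_mem_left _ s2
  have ne : ∀ y : 𝓞 M, y - 1 ∈ f → y ≠ 0 := by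
    rintro _ k rfl
    exact hf ((eq_top_iff_one _).2 (by simpa using k))
  have y1 : ok M α * (ok M π ^ a * x₀ + y₀) - 1 ∈ f := by
    have := f.add_mem (one_mul' z1 h1) (f.mul_mem_left (ok M α) (mul_le_left k1))
    rwa [show ok M α * ok M π ^ a * x₀ - 1 + ok M α * y₀ = ok M α * (ok M π ^ a * x₀ + y₀) - 1 by
      ring] at this
  have xz : x * (ok M α * ok M π ^ a : 𝓞 M) = (ok M α * (ok M π ^ a * x₀ + y₀) : 𝓞 M) := by
    simp only [map_add, map_mul, map_pow]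
    have : (algebraMap (𝓞 M) M) (ok M π) ^ a * (x - x₀) = y₀ := k2
    linear_combination (algebraMap (𝓞 M) M) (ok M α) * this
  have le : span {ok M α * (ok M π ^ a * x₀ + y₀)} * Qm ι J M m ≤ span {ok M α * ok M π ^ a} * B := by
    refine span_singleton_mul_le_span_singleton_mul.2 fun q hq => ?_
    obtain ⟨t, t1, t2⟩ := Vi_mul hv hq
    obtain ⟨γ, δ, e⟩ := (h.cop (t * s') (by simp [t1, s3])).pow_left (m := a)
    have e2 : ok M γ * ok M π ^ a + ok M δ * (ok M t * ok M s') = 1 := by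
      simpa using congrArg (algebraMap (𝓞 K) (𝓞 M)) e
    obtain ⟨g, t3⟩ : ∃ g : 𝓞 M, (algebraMap (𝓞 M) M) (ok M t) * (x * q) = g := ⟨⟨_, t2⟩, by
      show algebraMap K M t * (x * q) = algebraMap K M t * (2 ^ m * x * (q / 2 ^ m))
      field_simp⟩
    refine ⟨ok M γ * ((ok M π ^ a * x₀ + y₀) * q) + ok M δ * (g * ok M s'), B.add_mem
      (B.mul_mem_left _ (B.mul_mem_right _ (B.add_mem (B.mul_mem_left _ h0) (mul_le_right k1))))
      (B.mul_mem_left _ (B.mul_mem_left _ s4)), RingOfIntegers.coe_injective ?_⟩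
    have e3 := congrArg (algebraMap (𝓞 M) M) e2
    have : (algebraMap (𝓞 M) M) (ok M π) ^ a * (x - x₀) = y₀ := k2
    simp only [map_add, map_mul, map_pow, map_one, RingOfIntegers.coe_eq_algebraMap] at e3 t3 this ⊢
    rw [← this, ← t3]
    linear_combination (-(algebraMap (𝓞 M) M) (ok M α) * (algebraMap (𝓞 M) M) (ok M π) ^ a * x *
      (algebraMap (𝓞 M) M) q) * e3
  obtain ⟨I, hI⟩ := dvd_iff_le.2 le
  refine ⟨I, ⟨?_, cop_dvd (C := _ * _) ⟨span {ok M α * ok M π ^ a} * B, by rw [hI]; ring⟩ ?_⟩,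
    _, _, y1, z1, ne _ y1, ne _ z1, xz, by rw [hI]; ring⟩
  · rintro rfl
    rw [mul_bot, mul_eq_bot, span_singleton_eq_bot] at hI
    exact hI.elim (ne _ y1) hQ.1
  · refine isCoprime_iff_sup_eq.1 (IsCoprime.mul_left (isCoprime_iff_sup_eq.2 ?_)
      (isCoprime_iff_sup_eq.2 hQ.2))
    rw [eq_top_iff_one]
    exact Submodule.mem_sup.2 ⟨_, mem_span_singleton_self _, _, f.neg_mem y1, by ring⟩

theorem Co_unit (h0 : x₀ ∈ B) (u : (𝓞 M)ˣ) (hu : (u : 𝓞 M) - 1 ∈ f) (k : Co π (f * B) x₀ x) :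
    Co π (f * B) x₀ (((u : 𝓞 M) : M) * x) := by
  obtain ⟨a, y, k1, k2⟩ := k
  refine ⟨a, u * y + ok M π ^ a * ((u - 1) * x₀), add_mem (mul_mem_left _ _ k1)
    (mul_mem_left _ _ (mul_mem_mul hu h0)), ?_⟩
  have : (algebraMap (𝓞 M) M) (ok M π) ^ a * (x - x₀) = y := k2
  show (algebraMap (𝓞 M) M) (ok M π) ^ a * _ = _
  simp only [map_add, map_mul, map_pow, map_sub, map_one, RingOfIntegers.coe_eq_algebraMap] at this ⊢
  linear_combination (algebraMap (𝓞 M) M) u * this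

theorem Co_add {N : ℕ} (hN : (N : 𝓞 M) ∈ A) {o : M} (ho : Ms.Ow π o) (k : Co π A x₀ x) :
    Co π A x₀ (x + N * o) := by
  obtain ⟨a, y, k1, k2⟩ := k
  obtain ⟨b, hb⟩ := ho
  refine ⟨a + b, ok M π ^ b * y + ok M π ^ a * ⟨_, hb⟩ * N, add_mem (mul_mem_left _ _ k1)
    (mul_mem_left _ _ hN), ?_⟩
  show _ = algebraMap K M π ^ b * (y : M) + algebraMap K M π ^ a * (algebraMap K M π ^ b * o) * N
  rw [← k2]
  ring

theorem Co_ow (N : ℕ) (k : Co π A x₀ x) : Ms.Ow π ((N : M) * x) := by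
  obtain ⟨a, y, -, k2⟩ := k
  refine ⟨a, ?_⟩
  have : algebraMap K M π ^ a * (N * x) = (N * (y + ok M π ^ a * x₀) : 𝓞 M) := by
    show _ = (N : M) * ((y : M) + algebraMap K M π ^ a * x₀)
    rw [← k2]
    ring
  rw [this]
  exact RingOfIntegers.isIntegral_coe _

/-- membership in `c` at `c` -/
def Ic (π : 𝓞 K) (c : Ideal (𝓞 M)) (N : ℕ) (x : M) : Prop :=
  ∃ (a : ℕ) (u : 𝓞 M), u ∈ c ∧ algebraMap K M π ^ a * (N * x) = u

theorem Ic_unit {N : ℕ} (u : 𝓞 M) (k : Ic π c N x) : Ic π c N (u * x) := by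
  obtain ⟨a, y, k1, k2⟩ := k
  exact ⟨a, u * y, mul_mem_left _ _ k1, by
    show _ = (u : M) * (y : M)
    rw [← k2]
    ring⟩

theorem Ic_iff (h : Ms.Ar ι J π τ ψ) [hc : c.IsPrime] {N : ℕ} (hN : (N : 𝓞 M) ∉ c)
    (hπ : ok M π ∉ c) (hB : ¬ B ≤ c) (k : E f x (I * B) (Qm ι J M m)) : Ic π c N x ↔ c ∣ I := by
  obtain ⟨a, ha⟩ := pi_mem (M := M) h m
  obtain ⟨g, e1, e2, -, e4⟩ := E_mem k ha
  rw [dvd_iff_le]
  constructor
  · rintro ⟨b, u, k1, k2⟩
    have e : ok M π ^ b * N * g = ok M π ^ a * u := RingOfIntegers.coe_injective (by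
      simp only [map_mul, map_pow, map_natCast, RingOfIntegers.coe_eq_algebraMap] at e2 k2 ⊢
      rw [← e2, ← k2]
      show algebraMap K M π ^ b * N * (algebraMap K M π ^ a * x) = algebraMap K M π ^ a * _
      ring)
    have hg : g ∈ c := (hc.mem_or_mem (e ▸ mul_mem_left _ _ k1)).resolve_left fun k =>
      (hc.mem_or_mem k).elim (fun k => hπ (hc.mem_of_pow_mem _ k)) hN
    have : I * B * span {ok M π ^ a} ≤ c :=
      e4 ▸ mul_le_left.trans ((span_singleton_le_iff_mem _).2 hg)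
    exact (hc.mul_le.1 ((hc.mul_le.1 this).resolve_right fun k =>
      hπ (hc.mem_of_pow_mem _ ((span_singleton_le_iff_mem _).1 k)))).resolve_right hB
  · intro k1
    refine ⟨a, N * g, mul_mem_left _ _ (k1 (mul_le_left e1)), ?_⟩
    show _ = (N : M) * (g : M)
    rw [← e2, mul_left_comm]
    rfl

theorem Fd_iff {y : M} : Fd ι J m y ↔ Ms.Fd ι J m y := by
  rw [Fd, n_two]
  refine ⟨fun h x ⟨s, a, b⟩ => ?_, fun h r => h r (Vi_of ι J r)⟩
  have : ‖ι (J (Algebra.trace K M (algebraMap K M s * x * y)))‖ ≤ _ := h ⟨_, b⟩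
  rwa [mul_assoc, ← Algebra.smul_def, map_smul, smul_eq_mul, map_mul, map_mul, norm_mul, a,
    one_mul] at this

theorem Fd_int (t : 𝓞 M) : Fd ι J 0 (t : M) := fun r => by
  rw [pow_zero]
  exact n_int (ι.comp J) (tr_int (r * t))

/-- the passage to `A[1 / 2l]` -/
theorem Co_lf {l e : ℕ} (he : π ∣ 2 ^ e) (h1 : x₀ - 1 ∈ f) (k : Co π (f * B) x₀ x) :
    Lf (2 * l) f (x - 1) := by
  obtain ⟨a, y, k1, k2⟩ := k
  obtain ⟨r, hr⟩ := he
  refine ⟨e * a, (l ^ e * ok M r) ^ a * (y + ok M π ^ a * (x₀ - 1)), mul_mem_left _ _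
    (add_mem (mul_le_left k1) (mul_mem_left _ _ h1)), ?_⟩
  have e1 : (2 : M) ^ e = algebraMap K M π * algebraMap K M r := by
    have := congrArg (algebraMap K M) (congrArg (algebraMap (𝓞 K) K) hr)
    rwa [map_pow, map_pow, map_mul, map_mul, map_ofNat, map_ofNat] at this
  show _ = ((l : M) ^ e * algebraMap K M r) ^ a * ((y : M) + algebraMap K M π ^ a * (x₀ - 1))
  rw [← k2, pow_mul, Nat.cast_mul, mul_pow, Nat.cast_ofNat, e1]
  ring

theorem good {l e : ℕ} (hl : l.Prime) (he : π ∣ 2 ^ e) {t : 𝓞 M} {N : ℕ} (hN : (N : 𝓞 M) ∈ f)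
    (cN : N.Coprime l) (ht : ∀ x, Lf (2 * l) f (x - 1) → Algebra.trace K M (t * x) ≠ 0) :
    ∃ N' : ℕ, N'.Coprime l ∧ ∀ x, Lf (2 * l) f (x - 1) →
      ¬ Ms.Ow (π * (l : 𝓞 K)) (Algebra.trace K M (t * x) / N') := by
  have h0 : Algebra.trace K M t ≠ 0 := by simpa using ht 1 ⟨0, 0, zero_mem _, by simp⟩
  let ρ : 𝓞 K := ⟨_, tr_int t⟩
  have h1 : absNorm (span {ρ}) ≠ 0 := by
    rw [Ne, absNorm_eq_zero_iff, span_singleton_eq_bot]
    exact fun k => h0 (congrArg Subtype.val k)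
  obtain ⟨j, R, hR, e1⟩ := Nat.exists_eq_pow_mul_and_not_dvd h1 l hl.ne_one
  obtain ⟨ρ', e2⟩ := mem_span_singleton'.1 (absNorm_mem (span {ρ}))
  have R0 : R ≠ 0 := by rintro rfl; simp at hR
  have N0 : N ≠ 0 := by rintro rfl; simp at cN; exact hl.ne_one cN
  refine ⟨N * R, cN.mul_left ((Nat.Prime.coprime_iff_not_dvd hl).2 hR).symm, ?_⟩
  rintro x ⟨a, y, k1, k2⟩ ⟨b, hb⟩
  obtain ⟨r, hr⟩ := he
  set z := Algebra.trace K M (t * x) with hz
  refine ht (x - algebraMap K M (z / Algebra.trace K M t)) ⟨a + (e * b + b + j),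
    (2 * l) ^ (e * b + b + j) * y - (2 * l) ^ a * (2 ^ (b + j) * (l ^ e * ok M r) ^ b *
      ok M ρ' * ok M ⟨_, hb⟩) * N, sub_mem (mul_mem_left _ _ k1) (mul_mem_left _ _ hN), ?_⟩ ?_
  · have e3 : (2 : K) ^ e = π * r := by
      have := congrArg (algebraMap (𝓞 K) K) hr
      rwa [map_pow, map_mul, map_ofNat] at this
    have e4 : (ρ' : K) * Algebra.trace K M t = l ^ j * R := by
      have := congrArg (algebraMap (𝓞 K) K) e2
      rwa [e1, map_mul, map_natCast, Nat.cast_mul, Nat.cast_pow] at this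
    have e5 : (2 * l : K) ^ (e * b + b + j) * (z / Algebra.trace K M t) = 2 ^ (b + j) *
        (l ^ e * r) ^ b * ρ' * (((π * (l : 𝓞 K) : 𝓞 K) : K) ^ b * (z / (N * R : ℕ))) * N := by
      have : (N : K) ≠ 0 := Nat.cast_ne_zero.2 N0
      have : (R : K) ≠ 0 := Nat.cast_ne_zero.2 R0
      push_cast
      field_simp
      rw [pow_add, pow_add, pow_mul, mul_pow 2 (l : K) e, e3]
      linear_combination (-z * 2 ^ (b + j) * (l ^ e * r) ^ b * (π * l) ^ b) * e4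
    have e6 := congrArg (algebraMap K M) e5
    show _ = (2 * l : M) ^ (e * b + b + j) * (y : M) - (2 * l) ^ a * (2 ^ (b + j) *
      ((l : M) ^ e * algebraMap K M r) ^ b * algebraMap K M ρ' * algebraMap K M
      (((π * (l : 𝓞 K) : 𝓞 K) : K) ^ b * (z / (N * R : ℕ)))) * N
    simp only [map_mul, map_pow, map_natCast, map_ofNat] at e6 ⊢
    rw [← k2]
    push_cast at e6 ⊢
    linear_combination (-(2 * l : M) ^ a) * e6
  · rw [mul_sub, map_sub, mul_comm (t : M) (algebraMap K M _), ← Algebra.smul_def (z / _), map_smul,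
      smul_eq_mul, div_mul_cancel₀ _ h0, sub_self]

end Vale.Agent.P004C.As.Lc
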