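import Vale.Agent.P004C.As.Core
import Vale.Agent.P004C.As.Loc

/-!
# P004 C, block AS: series over ideals
-/

set_option linter.unusedSectionVars false

open NumberField Module Finset Ideal
open scoped Classical

noncomputable section

namespace Vale.Agent.P004C.As

open An Lc

variable {K : Type} [Field K] [NumberField K] {ι : ℂ →+* ℂ_[2]} {J : K →+* ℂ} {Ω : ℝ}
  {M : Type} [Field M] [NumberField M] [Algebra K M] {π : 𝓞 K} {τ : ℕ → K} {ψ : K → ℂ} {ω : ℂ}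

theorem cb_fin {G : Type*} [CommGroup G] (L : List G) : (cb L).Finite := by
  induction L with
  | nil => exact Set.finite_singleton _
  | cons e L ih => exact ih.union (ih.image _)

/-- the character as a bundled map -/
def ac (h : Ms.Ar ι J π τ ψ) : AddChar K ℂ where
  toFun := ψ
  map_zero_eq_one' := (h.ker 0).2 (by simp)
  map_add_eq_mul' := h.add

theorem mv_of (H : Ms.MSR) (O : Ms.One ι J Ω π τ ψ ω) {n : ℕ} {b : Basis (Fin n) K M}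
    (hb : Vb ι J b) {σ : Fin n → M →+* ℂ} (hσ : Sg J σ) {c : Ideal (𝓞 M)} {l : ℕ} (hc : Sm c l)
    {T : Fin n → M} {φ : M → ℂ} (h1 : Ms.Tf ι π c l φ) (h2 : Ms.Adm K c T) (h3 : Ms.Good π l T φ)
    (h4 : ∀ x, ‖ι (φ x)‖ ≤ 1) (m : ℕ) {y : M} (hy : Fd ι J 0 y) :
    Mv ι J (ι ω) (ac O.toAr) (dv ι J b) σ T φ m y := by
  obtain ⟨s, k1, k2⟩ := H K ι J Ω π τ ψ ω O M n b hb σ
    ⟨hσ.ext, fun x => (hσ.both x).2, fun x => (hσ.both x).1⟩ c l hc T φ 1 h1 h2 h3 h4 m y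
    (Fd_iff.1 hy)
  refine ⟨s, fun k hk => (k1 k hk).congr (fun x => ?_) rfl, fun k k' ν δ hk hk' hn => ?_⟩
  · unfold Ms.EE
    split_ifs
    · rfl
    · simp
  · have e : ∀ X : ℕ → ℂ_[2], ∑ j ∈ ({k, k'} : Finset ℕ),
        ((if j = k then 1 else 0) - if j = k' then ν else 0) * X j = X k - ν * X k' := fun X => by
      simp [sub_mul, sum_sub_distrib]
    have := k2 {k, k'} (fun j => (if j = k then 1 else 0) - if j = k' then ν else 0) δ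
      (by simp [hk, hk']) (fun y' a => by rw [e]; exact hn () y' (Fd_iff.2 a))
    rw [e] at this
    have h2 : (2 : ℂ_[2]) ^ (m * n) ≠ 0 := pow_ne_zero _ two_ne_zero
    have := mul_le_mul_of_nonneg_left this (norm_nonneg ((2 : ℂ_[2]) ^ (m * n)))
    rw [← norm_mul, norm_pow] at this
    refine (congrArg _ ?_).trans_le (this.trans_eq (by ring))
    simp only [div_pow, ← pow_mul, mul_comm n]
    field_simp

theorem tst (hT : Ms.TFC) (A : Ms.Ar ι J π τ ψ) {e : ℕ} (he : π ∣ 2 ^ e)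
    {c : Ideal (𝓞 M)} {l : ℕ} (hc : Sm c l) {f : Ideal (𝓞 M)} (hf : f ≠ ⊤) (pf : Pv ι J f)
    (fl : f ⊔ span {(l : 𝓞 M)} = ⊤) {B : Ideal (𝓞 M)} (b1 : Cp f B) (b2 : Pv ι J B)
    (b3 : B ⊔ span {(l : 𝓞 M)} = ⊤) {m : ℕ} (hQ : Cp f (Qm ι J M m)) :
    (∃ N : ℕ, (N : 𝓞 M) ∈ f ∧ N.Coprime l) ∧ ∃ φ : M → ℂ, Ms.Tf ι π c l φ ∧ (∀ x, ‖ι (φ x)‖ ≤ 1) ∧
      (∀ x, ‖φ x‖ ≤ 1 + l) ∧ (∀ {I x}, E f x (I * B) (Qm ι J M m) →
        φ x = xi c l I ∧ IsIntegral ℤ (2 ^ m * x)) ∧ (∀ x, φ x ≠ 0 → Lf (2 * l) f (x - 1)) ∧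
      (∀ x, φ x ≠ 0 → Vi ι J (2 ^ m * x) → ∃ I, Cp f I ∧ E f x (I * B) (Qm ι J M m)) ∧
      ∀ u : (𝓞 M)ˣ, (u : 𝓞 M) - 1 ∈ f → ∀ x, φ (((u : 𝓞 M) : M) * x) = φ x := by
  have cp : c.IsPrime := isPrime_of_irreducible_absNorm (hc.2.2.1 ▸ hc.1)
  have lc : (l : 𝓞 M) ∈ c := hc.2.2.1 ▸ absNorm_mem c
  obtain ⟨x₀, h0, x₁, h1, e0⟩ := Submodule.mem_sup.1 ((eq_top_iff_one _).1 b1.2)
  have h1 : x₀ - 1 ∈ f := by rw [← e0]; simpa using h1
  have fB : f * B ⊔ span {(l : 𝓞 M)} = ⊤ := isCoprime_iff_sup_eq.1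
    ((isCoprime_iff_sup_eq.2 fl).mul_left (isCoprime_iff_sup_eq.2 b3))
  obtain ⟨N, N1, N2⟩ : ∃ N : ℕ, (N : 𝓞 M) ∈ f * B ∧ N.Coprime l := by
    refine ⟨_, absNorm_mem _, ((Nat.Prime.coprime_iff_not_dvd hc.1).2 fun k => ?_).symm⟩
    obtain ⟨P, p1, p2, p3⟩ := exists_isMaximal_dvd_of_dvd_absNorm' hc.1 _ k
    have : (l : 𝓞 M) ∈ P := by
      have : (l : ℤ) ∈ P.under ℤ := p2 ▸ mem_span_singleton_self _
      simpa using this
    exact p1.ne_top (top_le_iff.1 (fB.ge.trans (sup_le (le_of_dvd p3)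
      ((span_singleton_le_iff_mem _).2 this))))
  have Nc : (N : 𝓞 M) ∉ c := fun k => cp.ne_top ((eq_top_iff_one _).2 (by
    obtain ⟨a, b, e⟩ := Nat.isCoprime_iff_coprime.2 N2
    have := add_mem (c.mul_mem_left (a : 𝓞 M) k) (c.mul_mem_left (b : 𝓞 M) lc)
    rwa [show (a : 𝓞 M) * N + b * l = 1 by exact_mod_cast congrArg (Int.cast (R := 𝓞 M)) e] at this))
  have πc : ok M π ∉ c := fun k => cp.ne_top ((eq_top_iff_one _).2 (by
    obtain ⟨a, b, e⟩ := A.cop l (by simpa using n_odd (hc.1.odd_of_ne_two hc.2.1))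
    have := add_mem (c.mul_mem_left (ok M a) k) (c.mul_mem_left (ok M b) lc)
    rwa [show ok M a * ok M π + ok M b * l = 1 by
      simpa using congrArg (algebraMap (𝓞 K) (𝓞 M)) e] at this))
  have Bc : ¬ B ≤ c := fun k => cp.ne_top
    (top_le_iff.1 (b3.ge.trans (sup_le k ((span_singleton_le_iff_mem _).2 lc))))
  let Φ : M → ℂ := fun x => if Co π (f * B) x₀ x then 1 else 0
  let φ : M → ℂ := fun x => Φ x * (1 - if Ic π c N x then (l : ℂ) else 0)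
  have hΦ : ∀ x, Φ x ≠ 0 → Co π (f * B) x₀ x := fun x k => not_not.1 fun n => k (if_neg n)
  have hφ : ∀ x, φ x ≠ 0 → Co π (f * B) x₀ x := fun x k => hΦ x (left_ne_zero_of_mul k)
  have tf : Ms.Tf ι π c l φ := (hT K ι J π τ ψ A M c l hc).2.2.2.2.2.2 Φ N 1 N2
    (fun x => by simp only [Φ]; split_ifs <;> simp) (fun x k => Co_ow N (hΦ x k)) (fun x o ho =>
      if_congr ⟨fun k => by
        obtain ⟨a, ha⟩ := ho
        simpa using Co_add N1 (o := -o) ⟨a, by simpa using ha.neg⟩ k, Co_add N1 ho⟩ rfl rfl)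
  have φ1 : ∀ x, ‖ι (φ x)‖ ≤ 1 := fun x => by
    simp only [φ, Φ]
    split_ifs
    · simpa using n_int (Int.castRingHom ℂ_[2]) (Algebra.IsIntegral.isIntegral (1 - l : ℤ))
    all_goals simp
  have φB : ∀ x, ‖φ x‖ ≤ 1 + l := fun x => by
    simp only [φ, Φ]
    split_ifs
    · simpa using norm_sub_le (1 : ℂ) l
    · simp
    all_goals simp only [zero_mul, norm_zero]; positivity
  have φE : ∀ {I x}, E f x (I * B) (Qm ι J M m) → φ x = xi c l I := fun {I x} k => by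
    simp only [φ, Φ, xi, if_pos (of_E A b1.2 h0 h1 k).2, Ic_iff A Nc πc Bc k]
    split_ifs <;> simp
  refine ⟨⟨N, mul_le_left N1, N2⟩, φ, tf, φ1, φB, fun k => ⟨φE k, (of_E A b1.2 h0 h1 k).1⟩,
    fun x k => Co_lf he h1 (hφ x k), fun x k => to_E A hf pf b2 hQ h0 h1 (hφ x k), fun u hu x => ?_⟩
  have hu' : ((u⁻¹ : (𝓞 M)ˣ) : 𝓞 M) - 1 ∈ f := by
    simpa [mul_sub] using f.neg_mem (f.mul_mem_left ((u⁻¹ : (𝓞 M)ˣ) : 𝓞 M) hu)
  have k1 : Co π (f * B) x₀ (((u : 𝓞 M) : M) * x) ↔ Co π (f * B) x₀ x :=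
    ⟨fun k => by simpa [← mul_assoc, ← map_mul] using Co_unit h0 u⁻¹ hu' k, Co_unit h0 u hu⟩
  have k2 : Ic π c N (((u : 𝓞 M) : M) * x) ↔ Ic π c N x :=
    ⟨fun k => by simpa [← mul_assoc, ← map_mul] using Ic_unit ((u⁻¹ : (𝓞 M)ˣ) : 𝓞 M) k, Ic_unit _⟩
  simp only [φ, Φ, k1, k2]

theorem sub_hs {α : Type} {P : α → Prop} (F : α → ℂ) {D : ℂ}
    (h : HasSum (fun I : {I // P I} => F I) D) : HasSum (fun I => if P I then F I else 0) D :=
  ((hasSum_subtype_iff_indicator (s := {I | P I}) (f := F)).1 h).congr_fun fun I => by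
    simp [Set.indicator]

theorem xi_ne (c : Ideal (𝓞 M)) {l : ℕ} (k : l ≠ 1) (I : Ideal (𝓞 M)) : xi c l I ≠ 0 := by
  unfold xi
  split_ifs
  · exact sub_ne_zero.2 (by exact_mod_cast k.symm)
  · exact one_ne_zero

theorem cls (H : IPL) (hM : Ms.MSR) (hT : Ms.TFC) (hB : Base ι J Ω) (O : Ms.One ι J Ω π τ ψ ω)
    {e : ℕ} (he : π ∣ 2 ^ e) {p : ℕ} {b : Basis (Fin (p + 1)) K M} (hb : Vb ι J b)
    {c : Ideal (𝓞 M)} {l : ℕ} (hc : Sm c l) {f : Ideal (𝓞 M)} (hf : f ≠ ⊤) (pf : Pv ι J f)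
    (fl : f ⊔ span {(l : 𝓞 M)} = ⊤) {U : Subgroup (𝓞 M)ˣ} {ε : Fin p → U} {i : ℕ}
    {ρ : Fin i → (𝓞 M)ˣ} (u1 : ∀ u : U, ∃! e : Fin p → ℤ, u = ∏ j, ε j ^ e j)
    (u2 : ∀ u ∈ U, Algebra.norm K ((u : 𝓞 M) : M) = 1 ∧ (u : 𝓞 M) - 1 ∈ f)
    (u3 : ∀ t, (ρ t : 𝓞 M) - 1 ∈ f) (u4 : ∀ u : (𝓞 M)ˣ, (u : 𝓞 M) - 1 ∈ f → ∃! t, u / ρ t ∈ U)
    {t : 𝓞 M} (t1 : ∀ x, Lf (2 * l) f (x - 1) → Algebra.trace K M (t * x) ≠ 0)
    (t2 : ∀ a : Fin (p + 1) → U, (∀ j, a j ∈ cb (List.ofFn ε)) → ∀ j, ∃ d : 𝓞 M, d ∉ c ∧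
      ∀ i, i ≠ j → Algebra.trace K M ((((a i : (𝓞 M)ˣ) : 𝓞 M) : M) * t * d) = 0)
    {B : Ideal (𝓞 M)} (b1 : Cp f B) (b2 : Pv ι J B) (b3 : B ⊔ span {(l : 𝓞 M)} = ⊤) {m : ℕ}
    (hQ : Cp f (Qm ι J M m)) {P : Ideal (𝓞 M) → Prop} {x : Ideal (𝓞 M) → M}
    (x1 : ∀ I, P I → E f (x I) (I * B) (Qm ι J M m))
    (x2 : ∀ I x', Cp f I → E f x' (I * B) (Qm ι J M m) → P I)
    {μ : Type} [Fintype μ] (y : μ → M) (g : μ → ℂ) (hy : ∀ i, Fd ι J 0 (y i))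
    (hg : ∀ i, ‖ι (g i)‖ ≤ 1) (hi : ∀ u : (𝓞 M)ˣ, (u : 𝓞 M) - 1 ∈ f → ∀ x,
      hv ι J (ac O.toAr) m (p + 1) y g (((u : 𝓞 M) : M) * x) = hv ι J (ac O.toAr) m (p + 1) y g x) :
    ∃ D : ℕ → ℂ → ℂ, (∀ k, 0 < k → DifferentiableOn ℂ (D k) (Hp k) ∧
      ((∀ u : (𝓞 M)ˣ, (u : 𝓞 M) - 1 ∈ f → Algebra.norm K ((u : 𝓞 M) : M) ^ k = 1) → ∀ s : ℂ,
        2 < (k : ℝ) + 2 * s.re → HasSum (fun I => if P I then i * (xi c l I *
          hv ι J (ac O.toAr) m (p + 1) y g (x I) * tm J k s (x I)) else 0) (D k s))) ∧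
      ∀ (k k' : ℕ) (ν : ℂ_[2]) (δ : ℝ), 0 < k → 0 < k' → 0 ≤ δ → Nr ι J m k k' y ν δ →
        ‖nv (ι ω) (p + 1) k (ι (D k 0)) - ν * nv (ι ω) (p + 1) k' (ι (D k' 0))‖ ≤
          δ / √(dv ι J b) := by
  have A := O.toAr
  obtain ⟨σ, hσ⟩ := ex_sg (M := M) J (by simpa using finrank_eq_card_basis b : _ = p + 1)
  obtain ⟨⟨N, N1, N2⟩, φ, tf, φ1, φB, φE, φL, φI, φU⟩ := tst hT A he hc hf pf fl b1 b2 b3 hQ
  have lf : ∀ u ∈ U, ∀ x, φ x ≠ 0 → Lf (2 * l) f (((u : 𝓞 M) : M) * x - 1) := fun u hu x k =>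
    φL _ (by rwa [φU u (u2 u hu).2])
  obtain ⟨N', g1, g2⟩ := good hc.1 he N1 N2 t1
  obtain ⟨N₀, -, -, -, n4⟩ := tf.lev
  let r : {I // P I} × Fin i → M := fun z => ((ρ z.2 : 𝓞 M) : M) * x z.1
  have hr : ∀ z, E f (r z) (z.1 * B) (Qm ι J M m) := fun z => E_smul (x1 _ z.1.2) _ (u3 _)
  obtain ⟨D, D1, D2⟩ := core (Ωp := ι ω) (ψ := ac A) (d := dv ι J b) H hB A.ker hσ U ε t φ (1 + l)
    (2 ^ m) m (by simp) u1 (fun u k => (u2 u k).1) φB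
    (fun x k k' => by
      obtain ⟨I, -, e⟩ := φI x k k'
      simpa using (φE e).2)
    (fun x k => t1 x (φL x k))
    (fun a ha => by
      obtain ⟨d, d1, d2⟩ := t2 (Fin.cons 1 a) (Fin.cases (cb_one _) ha) 0
      refine ⟨N₀ * d, l, ⟨hc.1.pos, fun x => ?_⟩, fun j => ?_⟩
      · simpa [mul_assoc] using n4 x d d1
      · have := d2 j.succ (Fin.succ_ne_zero j)
        rw [Fin.cons_succ] at this
        rw [show (((N₀ : 𝓞 M) * d : 𝓞 M) : M) = N₀ • (d : M) by simp, mul_smul_comm, map_nsmul, this,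
          smul_zero])
    y g hy hg
    (fun a ha i => mv_of hM O hb hσ hc tf (.inr (t2 a ha)) ⟨N', g1, fun j x k => by
      have := g2 _ (lf _ (a j).2 x k)
      rwa [← mul_assoc, mul_comm (t : M)] at this⟩ φ1 m (hy i))
    (fun u hu x => ⟨φU u (u2 u hu).2 x, hi u (u2 u hu).2 x⟩)
    r (fun z => ⟨by rw [(φE (hr z)).1]; exact xi_ne _ hc.1.ne_one _, 1, by simp, by
      simpa using (φE (hr z)).2⟩)
    (by
      rintro ⟨⟨⟨I, hI⟩, s⟩, u⟩ ⟨⟨⟨I', hI'⟩, s'⟩, u'⟩ k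
      have k1 := E_smul (hr (⟨I, hI⟩, s)) u (u2 _ u.2).2
      have k2 := E_smul (hr (⟨I', hI'⟩, s')) u' (u2 _ u'.2).2
      rw [show _ * r _ = _ * r _ from k] at k1
      obtain rfl : I = I' := mul_right_cancel₀ b1.1 (E_uniq k1 k2)
      have k3 : (u : (𝓞 M)ˣ) * ρ s = u' * ρ s' := Units.val_injective (RingOfIntegers.coe_injective
        (mul_right_cancel₀ (E_ne (x1 I hI)) (by simpa [r, mul_assoc] using k)))
      obtain rfl : s = s' := (u4 (u * ρ s) (one_mul' (u2 _ u.2).2 (u3 s))).unique (by simp)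
        (by simp [k3])
      obtain rfl : u = u' := Subtype.ext (mul_right_cancel k3)
      rfl)
    (fun x' k k' => by
      obtain ⟨I, c1, e⟩ := φI x' k k'
      obtain ⟨u, v1, rfl⟩ := E_unit hQ.1 (x1 I (x2 I x' c1 e)) e
      obtain ⟨s, v2, -⟩ := u4 u v1
      refine ⟨(⟨I, x2 I _ c1 e⟩, s), _, v2, ?_⟩
      simp only [r, ← mul_assoc, ← map_mul, ← Units.val_mul, div_mul_cancel])
  refine ⟨D, fun k hk => ⟨(D1 k hk).1, fun hu s hs => ?_⟩, D2⟩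
  have := ((D1 k hk).2 s hs).prod_fiberwise (g := fun I : {I // P I} => i * (xi c l I *
      hv ι J (ac A) m (p + 1) y g (x I) * tm J k s (x I))) fun I => by
    have := hasSum_fintype fun _ : Fin i =>
      xi c l I * hv ι J (ac A) m (p + 1) y g (x I) * tm J k s (x I)
    rw [sum_const, card_univ, Fintype.card_fin, nsmul_eq_mul] at this
    refine this.congr_fun fun a => ?_
    have k1 : J (Algebra.norm K ((ρ a : 𝓞 M) : M)) ^ k = 1 := by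
      rw [← map_pow, hu _ (u3 a), map_one]
    rw [(φE (hr (I, a))).1]
    simp only [r, hi _ (u3 a), tm, map_mul, norm_mul, mul_pow, k1,
      Complex.norm_eq_one_of_pow_eq_one k1 hk.ne', one_mul]
  exact sub_hs (fun I => i * (xi c l I * hv ι J (ac A) m (p + 1) y g (x I) * tm J k s (x I))) this

theorem idl (H : IPL) (hA : Ms.BAS) (hM : Ms.MSR) (hT : Ms.TFC) (unt : UNT) (ray : RAY) (vtx : VTX)
    (val : VAL) (vaq : VAQ) : IDL := by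
  intro K _ _ ι J Ω hB
  obtain ⟨π, τ, ψ, ω, O⟩ := hA K ι J Ω hB hB.sur
  refine ⟨ι ω, ac O.toAr, O.om, O.ker, fun M _ _ _ n b hb c l hc f pf fl ⟨w, w1, w2, w3⟩ m => ?_⟩
  obtain ⟨e, he⟩ := ((val K ι J Ω hB).2.1 π O.cop).2
  have hn : finrank K M = n := by simpa using finrank_eq_card_basis b
  have _ := fd K M
  obtain ⟨p, rfl⟩ : ∃ p, n = p + 1 := ⟨n - 1, by have := finrank_pos (R := K) (M := M); omega⟩
  have hf : f ≠ ⊤ := fun k => w1.ne_top (top_le_iff.1 (k ▸ w2))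
  have f0 : f ≠ ⊥ := by
    obtain ⟨s, s1, s2⟩ := pf
    rintro rfl
    have : (algebraMap K M s) = 0 := congrArg (algebraMap (𝓞 M) M) (mem_bot.1 s2)
    rw [(map_eq_zero _).1 this] at s1
    simp at s1
  have lc : (l : 𝓞 M) ∈ c := hc.2.2.1 ▸ absNorm_mem c
  have fc : f ⊔ c = ⊤ :=
    top_le_iff.1 (fl.ge.trans (sup_le_sup_left ((span_singleton_le_iff_mem _).2 lc) _))
  obtain ⟨q1, -, q3, -⟩ := vaq K ι J Ω hB M
  have hQ : Cp f (Qm ι J M m) := ⟨fun k => pow_ne_zero m two_ne_zero (mem_bot.1 (k ▸ two_mem m)), by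
    rw [q3]
    exact isCoprime_iff_sup_eq.1 (isCoprime_iff_sup_eq.2 ((q1 f).1 pf)).symm.pow_left⟩
  obtain ⟨U, ε, i, ρ, u1, u2, i1, i2, i3, u3, u4⟩ := unt K ι J Ω hB M p hn f f0
  obtain ⟨β, _, B, b1, b2⟩ := ray M f (span {2 * (l : 𝓞 M)}) f0 (by simpa using hc.1.ne_zero)
  have b3 : ∀ j, B j ⊔ span {2} = ⊤ ∧ B j ⊔ span {(l : 𝓞 M)} = ⊤ := fun j =>
    ⟨top_le_iff.1 ((b1 j).2.ge.trans (sup_le_sup_left
      (span_singleton_le_span_singleton.2 (dvd_mul_right _ _)) _)),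
    top_le_iff.1 ((b1 j).2.ge.trans (sup_le_sup_left
      (span_singleton_le_span_singleton.2 (dvd_mul_left _ _)) _))⟩
  have b4 : ∀ j, Pv ι J (B j) := fun j => (q1 _).2 (top_le_iff.1 ((b3 j).1.ge.trans
    (sup_le_sup_left ((span_singleton_le_iff_mem _).2 (by simpa using two_mem (M := M) 1)) _)))
  obtain ⟨t, t1, t2⟩ := vtx K M (p + 1) hn c l hc f ⊤ w (2 * l) f0 fc ⟨top_ne_bot, top_sup_eq _⟩ w1 w2
    (fun k => (w1.isPrime.mem_or_mem (by simpa using k)).elim w3 fun k => w1.ne_top (top_le_iff.1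
      (fl.ge.trans (sup_le w2 ((span_singleton_le_iff_mem _).2 k))))) _
    ((cb_fin (List.ofFn ε)).image fun u : U => (((u : (𝓞 M)ˣ) : 𝓞 M) : M))
  obtain ⟨j₀, -⟩ := b2 _ _ hQ hQ
  have : ∀ I, ∃ (j : β) (x : M), Cp f I → E f x (I * B j) (Qm ι J M m) := fun I => by
    by_cases k : Cp f I
    · obtain ⟨j, ⟨x, a⟩, -⟩ := b2 _ I hQ k
      exact ⟨j, x, fun _ => a⟩
    · exact ⟨j₀, 0, fun a => absurd a k⟩
  choose j x hx using this
  refine ⟨i, β, inferInstance, B, j, x, i1, i2, i3, fun j => ⟨(b1 j).1, (b3 j).1⟩, hx,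
    fun μ _ y g hy hg hi => ?_⟩
  choose D D1 D2 using fun a : β => cls H hM hT hB O he hb hc hf pf fl u1 u2 u3 u4 t1
    (fun a ha j => by
      obtain ⟨d, -, k⟩ := t2 _ (fun j => ⟨a j, ha j, rfl⟩) j
      exact ⟨d, k⟩) (b1 a).1 (b4 a) (b3 a).2 hQ (P := fun I => Cp f I ∧ j I = a) (x := x)
    (fun I k => k.2 ▸ hx I k.1)
    (fun I x' k k' => ⟨k, (b2 _ I hQ k).unique ⟨_, hx I k⟩ ⟨_, k'⟩⟩) y g hy hg hi
  let R : β → ℝ := fun a => absNorm (B a) / absNorm (Qm ι J M m)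
  have n0 : ∀ I : Ideal (𝓞 M), I ≠ ⊥ → (0 : ℝ) < absNorm I := fun I k =>
    Nat.cast_pos.2 (Nat.pos_of_ne_zero fun e => k (absNorm_eq_zero_iff.1 e))
  have R0 : ∀ a, 0 < R a := fun a => div_pos (n0 _ (b1 a).1.1) (n0 _ hQ.1)
  have R1 : ∀ a, ((R a : ℝ) : ℂ) ≠ 0 := fun a => Complex.ofReal_ne_zero.2 (R0 a).ne'
  refine ⟨fun k w s => ∑ a, w a * (R a : ℂ) ^ s * D a k s, fun k w hk => ⟨?_, fun hu s hs => ?_⟩,
    fun k k' w w' ν δ δ' hk hk' h0 h0' hw hw' n1 n2 => ?_⟩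
  · exact DifferentiableOn.fun_sum fun a _ => (((differentiable_id.const_cpow
      (.inl (R1 a))).const_mul _).differentiableOn).mul (D1 a k hk).1
  · refine (hasSum_sum fun a _ => ((D1 a k hk).2 hu s hs).mul_left _).congr_fun fun I => ?_
    by_cases c1 : Cp f I
    · have e1 : ‖J (Algebra.norm K (x I))‖ ^ 2 = absNorm I * R (j I) := by
        have := E_norm hB (hx I c1)
        rw [map_mul, Nat.cast_mul] at this
        rw [← mul_div_assoc, this, mul_div_cancel_right₀ _ (n0 _ hQ.1).ne']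
      have e2 := Complex.cpow_ne_zero_iff.2 (.inl (R1 (j I)) : _ ∨ s = 0)
      rw [sum_eq_single (j I) (fun a _ k => by simp [k.symm]) (by simp), if_pos c1,
        if_pos ⟨c1, rfl⟩, tm, e1, Complex.ofReal_mul,
        Complex.mul_cpow_ofReal_nonneg (Nat.cast_nonneg _) (R0 _).le, Complex.cpow_neg (R _),
        Complex.ofReal_natCast]
      field_simp
    · simp [c1]
  · simp only [Complex.cpow_zero, mul_one, nv, map_sum, map_mul, mul_sum, ← sum_sub_distrib]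
    refine sum_le _ (by positivity) fun a => ?_
    have k1 := mul_le_mul (hw a) (D2 a k k' ν δ hk hk' h0 n1) (norm_nonneg _) zero_le_one
    have k2 := mul_le_mul_of_nonneg_left (D2 a k' k' 0 δ' hk' hk' h0' n2)
      (mul_nonneg (norm_nonneg ν) (norm_nonneg (ι (w a - w' a))))
    rw [← mul_div_assoc] at k2
    replace k2 := k2.trans (div_le_div_of_nonneg_right (hw' a) (Real.sqrt_nonneg _))
    rw [← norm_mul, one_mul] at k1
    rw [← norm_mul, ← norm_mul] at k2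
    refine (congrArg _ ?_).trans_le ((IsUltrametricDist.norm_add_le_max _ _).trans (max_le k1 k2))
    simp only [nv, map_sub]
    ring

end Vale.Agent.P004C.As
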