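import Vale.Agent.P004C.As.St
import Vale.Agent.P004C.As.Emb

/-!
# P004 C, block AS: valuations at `v`, small lemmas
-/

set_option linter.unusedSectionVars false

open NumberField Module Finset
open scoped Classical

noncomputable section

namespace Vale.Agent.P004C.As

open An

namespace Vl

theorem ni {R F : Type} [CommRing R] [NormedField F] [IsUltrametricDist F] (τ : R →+* F) {x : R}
    (h : IsIntegral ℤ x) : ‖τ x‖ ≤ 1 := by
  have h1 : IsIntegral (NormedField.valuation (K := F)).integer (τ x) :=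
    (h.map τ.toIntAlgHom).tower_top
  exact_mod_cast (Valuation.integer.integers _).mem_of_integral h1

theorem n2 : ‖(2 : ℂ_[2])‖ = 1 / 2 := by
  have := norm_algebraMap' ℂ_[2] ((2 : ℕ) : ℚ_[2])
  rw [map_natCast, Padic.norm_p] at this
  simpa using this

theorem np {α : Type} (s : Finset α) (a b : α → ℂ_[2]) {δ : ℝ} (h0 : 0 ≤ δ)
    (ha : ∀ i, ‖a i‖ ≤ 1) (hb : ∀ i, ‖b i‖ ≤ 1) (h : ∀ i, ‖a i - b i‖ ≤ δ) :
    ‖∏ i ∈ s, a i - ∏ i ∈ s, b i‖ ≤ δ := by
  induction s using Finset.induction_on with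
  | empty => simpa using h0
  | insert j s hj ih =>
    rw [prod_insert hj, prod_insert hj, show a j * ∏ i ∈ s, a i - b j * ∏ i ∈ s, b i =
      a j * (∏ i ∈ s, a i - ∏ i ∈ s, b i) + (a j - b j) * ∏ i ∈ s, b i by ring]
    refine (IsUltrametricDist.norm_add_le_max _ _).trans (max_le ?_ ?_)
    · rw [norm_mul]
      exact (mul_le_of_le_one_left (norm_nonneg _) (ha j)).trans ih
    · rw [norm_mul, norm_prod]
      exact (mul_le_of_le_one_right (norm_nonneg _)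
        (prod_le_one (fun i _ => norm_nonneg _) fun i _ => hb i)).trans (h j)

variable {K : Type} [Field K] [NumberField K]

/-- the prime over two of an embedding -/
def pv (τ : K →+* ℂ_[2]) : Ideal (𝓞 K) where
  carrier := {x | ‖τ x‖ < 1}
  add_mem' := fun {a b} h k => by
    have : τ ((a + b : 𝓞 K) : K) = τ a + τ b := by simp
    show ‖_‖ < 1
    rw [this]
    exact (IsUltrametricDist.norm_add_le_max _ _).trans_lt (max_lt h k)
  zero_mem' := by simp
  smul_mem' := fun c y h => by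
    have : τ ((c • y : 𝓞 K) : K) = τ c * τ y := by simp
    show ‖_‖ < 1
    rw [this, norm_mul]
    exact (mul_le_of_le_one_left (norm_nonneg _) (ni τ c.isIntegral_coe)).trans_lt h

theorem mem_pv {τ : K →+* ℂ_[2]} {x : 𝓞 K} : x ∈ pv τ ↔ ‖τ x‖ < 1 := Iff.rfl

theorem nmem_pv {τ : K →+* ℂ_[2]} {x : 𝓞 K} : x ∉ pv τ ↔ ‖τ x‖ = 1 := by
  rw [mem_pv, not_lt]
  exact ⟨fun h => le_antisymm (ni τ x.isIntegral_coe) h, fun h => h.ge⟩

theorem two_pv (τ : K →+* ℂ_[2]) : (2 : 𝓞 K) ∈ pv τ := by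
  have : τ ((2 : 𝓞 K) : K) = 2 := map_ofNat (τ.comp (algebraMap (𝓞 K) K)) 2
  rw [mem_pv, this, n2]
  norm_num

theorem pv_ne (τ : K →+* ℂ_[2]) : pv τ ≠ ⊥ := fun e => by
  have := two_pv τ
  rw [e, Ideal.mem_bot] at this
  exact two_ne_zero this

theorem pv_pr (τ : K →+* ℂ_[2]) : (pv τ).IsPrime := by
  refine ⟨fun e => ?_, fun {a b} h => ?_⟩
  · have : (1 : 𝓞 K) ∈ pv τ := e ▸ Submodule.mem_top
    simp [mem_pv] at this
  · by_contra! k
    have e : τ ((a * b : 𝓞 K) : K) = τ a * τ b := by simp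
    rw [mem_pv, e, norm_mul, nmem_pv.1 k.1, nmem_pv.1 k.2] at h
    simp at h

theorem pv_max (τ : K →+* ℂ_[2]) : (pv τ).IsMaximal := (pv_pr τ).isMaximal (pv_ne τ)

theorem den (τ : K →+* ℂ_[2]) {w : K} (h : ‖τ w‖ ≤ 1) :
    ∃ s : 𝓞 K, ‖τ s‖ = 1 ∧ IsIntegral ℤ (s * w) := by
  obtain ⟨a, d, e | e⟩ := IsDedekindDomain.HeightOneSpectrum.exists_primeCompl_mul_eq_or_mul_eq
    (K := K) ⟨pv τ, pv_pr τ, pv_ne τ⟩ w
  · exact ⟨d, nmem_pv.1 d.2, by rw [mul_comm]; exact e ▸ a.isIntegral_coe⟩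
  · refine ⟨a, le_antisymm (ni τ a.isIntegral_coe) ?_,
      by rw [mul_comm]; exact e ▸ d.1.isIntegral_coe⟩
    have h1 : ‖τ w‖ * ‖τ a‖ = 1 := by
      rw [← norm_mul, ← map_mul]
      exact (congrArg (fun t => ‖τ t‖) e).trans (nmem_pv.1 d.2)
    exact h1.ge.trans (mul_le_of_le_one_left (norm_nonneg _) h)

variable {ι : ℂ →+* ℂ_[2]} {J : K →+* ℂ} {Ω : ℝ}

theorem ex_pi (ι : ℂ →+* ℂ_[2]) (J : K →+* ℂ) : ∃ π : 𝓞 K, ‖ι (J π)‖ < 1 ∧ Vp ι J π := by
  have h0 := mem_nonZeroDivisors_of_ne_zero (pv_ne (ι.comp J))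
  have h1 : (pv (ι.comp J) ^ Fintype.card (ClassGroup (𝓞 K))).IsPrincipal := by
    rw [← ClassGroup.mk0_eq_one_iff (pow_mem h0 _), ← SubmonoidClass.mk_pow _ h0, map_pow,
      pow_card_eq_one]
  obtain ⟨π, hπ⟩ := h1
  refine ⟨π, ?_, fun s hs => ?_⟩
  · exact (Ideal.pow_le_self Fintype.card_ne_zero : _ ≤ pv (ι.comp J))
      (hπ ▸ Submodule.mem_span_singleton_self π)
  · rw [← Ideal.isCoprime_span_singleton_iff, ← Ideal.submodule_span_eq, ← hπ]
    refine IsCoprime.pow_left (Ideal.isCoprime_iff_sup_eq.2 ((pv_max _).out.2 _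
      (left_lt_sup.2 fun k => ?_)))
    exact (nmem_pv (τ := ι.comp J)).2 hs (k (Ideal.mem_span_singleton_self s))

theorem vp (hB : Base ι J Ω) {s : 𝓞 K} (hs : Vp ι J s) :
    ‖ι ((starRingEnd ℂ) (J s))‖ = 1 ∧ ∃ a : ℕ, s ∣ 2 ^ a := by
  have key : ∀ P : Ideal (𝓞 K), P ≠ ⊤ → s ∈ P → P ≤ pv (ι.comp J) := fun P hP h y hy => by
    by_contra k
    obtain ⟨a, b, e⟩ := hs y (nmem_pv.1 k)
    exact hP ((Ideal.eq_top_iff_one P).2 (e ▸ P.add_mem (P.mul_mem_left a h) (P.mul_mem_left b hy)))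
  have h1 : s ∉ pv ((ι.comp (starRingEnd ℂ)).comp J) := fun h => by
    obtain ⟨x, a, b⟩ := hB.spl
    have e := (pv_max _).eq_of_le (pv_pr _).ne_top (key _ (pv_pr _).ne_top h)
    exact (nmem_pv (τ := (ι.comp (starRingEnd ℂ)).comp J)).2 b (e ▸ a)
  refine ⟨nmem_pv.1 h1, ?_⟩
  have h2 : (2 : 𝓞 K) ∈ (Ideal.span {s}).radical := by
    rw [Ideal.radical_eq_sInf, Ideal.mem_sInf]
    rintro P ⟨a, b⟩
    have c := a (Ideal.mem_span_singleton_self s)
    have d : P ≠ ⊥ := fun e => h1 (by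
      rw [e, Ideal.mem_bot] at c
      exact c ▸ Ideal.zero_mem _)
    rw [(b.isMaximal d).eq_of_le (pv_pr _).ne_top (key P b.ne_top c)]
    exact two_pv _
  obtain ⟨a, ha⟩ := h2
  exact ⟨a, Ideal.mem_span_singleton.1 ha⟩

variable {M : Type} [Field M] [NumberField M] [Algebra K M]

theorem vi_map (w : K) : Vi ι J (algebraMap K M w) ↔ ‖ι (J w)‖ ≤ 1 := by
  constructor
  · rintro ⟨s, a, b⟩
    rw [← map_mul, isIntegral_algebraMap_iff (algebraMap K M).injective] at b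
    have := ni (ι.comp J) b
    simpa [a] using this
  · intro h
    obtain ⟨s, a, b⟩ := den (ι.comp J) h
    exact ⟨s, a, by rw [← map_mul]; exact b.map (algebraMap K M).toIntAlgHom⟩

theorem vi_emb {x : M} (h : Vi ι J x) (τ : M →+* ℂ) (e : ∀ w, τ (algebraMap K M w) = J w) :
    ‖ι (τ x)‖ ≤ 1 := by
  obtain ⟨s, a, b⟩ := h
  have := ni (ι.comp τ) b
  simpa [e, a] using this

theorem vi_neg {x : M} (h : Vi ι J x) : Vi ι J (-x) := by
  obtain ⟨s, a, b⟩ := h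
  exact ⟨s, a, by rw [mul_neg]; exact b.neg⟩

theorem vi_sub {x y : M} (h : Vi ι J x) (k : Vi ι J y) : Vi ι J (x - y) := by
  rw [sub_eq_add_neg]
  exact Vi_add h (vi_neg k)

theorem vi_int {x : M} (h : IsIntegral ℤ x) : Vi ι J x := Vi_of ι J (⟨x, h⟩ : 𝓞 M)

theorem n_int {y : M} (h : IsIntegral ℤ y) : IsIntegral ℤ (Algebra.norm K y) :=
  Algebra.isIntegral_norm K h

theorem n_div (J : K →+* ℂ) {y : M} (h : IsIntegral ℤ y) :
    IsIntegral ℤ (algebraMap K M (Algebra.norm K y) / y) := by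
  by_cases h0 : y = 0
  · simpa [h0] using isIntegral_zero
  have _ := fd K M
  obtain ⟨σ, hσ⟩ := ex_sg (M := M) J rfl
  let i : Fin (finrank K M) := ⟨0, finrank_pos⟩
  rw [← isIntegral_algHom_iff (σ i).toIntAlgHom (σ i).injective]
  have e : (σ i).toIntAlgHom (algebraMap K M (Algebra.norm K y) / y) = ∏ j ∈ univ.erase i, σ j y := by
    show σ i _ = _
    rw [map_div₀, hσ.ext, ← (hσ.both y).1, ← mul_prod_erase _ _ (mem_univ i),
      mul_div_cancel_left₀ _ ((map_ne_zero _).2 h0)]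
  rw [e]
  exact IsIntegral.prod _ fun j _ => h.map (σ j).toIntAlgHom

theorem vi_tr {z : M} (h : Vi ι J z) : ‖ι (J (Algebra.trace K M z))‖ ≤ 1 := by
  obtain ⟨s, a, b⟩ := h
  have := ni (ι.comp J) (tr_int (K := K) (⟨_, b⟩ : 𝓞 M))
  change ‖ι (J (Algebra.trace K M (algebraMap K M s * z)))‖ ≤ 1 at this
  rw [← Algebra.smul_def, map_smul, smul_eq_mul] at this
  simpa [a] using this

theorem n_mul (s : K) (z : M) : ‖ι (J (Algebra.norm K (algebraMap K M s * z)))‖ =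
    ‖ι (J s)‖ ^ finrank K M * ‖ι (J (Algebra.norm K z))‖ := by
  simp [Algebra.norm_algebraMap]

theorem vi_n {z : M} (h : Vi ι J z) : ‖ι (J (Algebra.norm K z))‖ ≤ 1 := by
  obtain ⟨s, a, b⟩ := h
  have : ‖ι (J _)‖ ≤ 1 := ni (ι.comp J) (n_int (K := K) b)
  simpa [n_mul, a] using this

theorem vi_inv {z : M} (h : Vi ι J z) (k : ‖ι (J (Algebra.norm K z))‖ = 1) : Vi ι J z⁻¹ := by
  obtain ⟨s, a, b⟩ := h
  have s0 : algebraMap K M s ≠ 0 := (map_ne_zero _).2 fun e => by simp [e] at a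
  refine ⟨⟨_, n_int (K := K) b⟩, ?_, ?_⟩
  · show ‖ι (J (Algebra.norm K _))‖ = 1
    rw [n_mul, a, k, one_pow, one_mul]
  · have := (int_map s).mul (n_div J b)
    rwa [← mul_div_assoc, mul_div_mul_left _ _ s0, div_eq_mul_inv] at this

theorem cont {z x : M} {m : ℕ} (h : Vi ι J z) (k : Vi ι J ((x - z) / 2 ^ m)) :
    ‖ι (J (Algebra.norm K x)) - ι (J (Algebra.norm K z))‖ ≤ ‖(2 : ℂ_[2])‖ ^ m := by
  obtain ⟨σ, hσ⟩ := ex_sg (M := M) J rfl
  have e : x - z = 2 ^ m * ((x - z) / 2 ^ m) := by field_simp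
  have hx : Vi ι J x := by
    rw [show x = z + (x - z) by ring, e]
    exact Vi_add h (Vi_mul (vi_int (by exact_mod_cast isIntegral_algebraMap (x := (2 ^ m : ℤ)))) k)
  rw [← (hσ.both x).1, ← (hσ.both z).1, map_prod, map_prod]
  refine np _ _ _ (by positivity) (fun i => vi_emb hx _ (hσ.ext i))
    (fun i => vi_emb h _ (hσ.ext i)) fun i => ?_
  rw [← map_sub, ← map_sub, e, map_mul, map_mul, norm_mul, map_pow, map_pow, map_ofNat, map_ofNat,
    norm_pow]
  exact mul_le_of_le_one_right (by positivity) (vi_emb k _ (hσ.ext i))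

theorem coe_map (s : 𝓞 K) : ((algebraMap (𝓞 K) (𝓞 M) s : 𝓞 M) : M) = algebraMap K M s := rfl

theorem apx {f : Ideal (𝓞 M)} {z : M} (m : ℕ) (hf : Pv ι J f) (h : Vi ι J z) :
    ∃ x : 𝓞 M, x - 1 ∈ f ∧ Vi ι J ((x - z) / 2 ^ m) := by
  obtain ⟨t, t1, t2⟩ := hf
  obtain ⟨π, p1, p2⟩ := ex_pi ι J
  have h' := h
  obtain ⟨s, a, b⟩ := h
  obtain ⟨N, hN⟩ := exists_pow_lt_of_lt_one (x := ‖(2 : ℂ_[2])‖ ^ m) (by rw [n2]; positivity) p1
  obtain ⟨c, d, e⟩ := (p2 (s * t) (by simp [a, t1])).pow_left (m := N)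
  refine ⟨1 + algebraMap _ _ d * (⟨_, b⟩ - algebraMap _ _ s) * algebraMap _ _ t, ?_, ?_⟩
  · rw [add_sub_cancel_left]
    exact f.mul_mem_left _ t2
  · have e' : algebraMap K M c * algebraMap K M π ^ N +
        algebraMap K M d * (algebraMap K M s * algebraMap K M t) = 1 := by
      simpa [coe_map] using congrArg (fun u => ((algebraMap (𝓞 K) (𝓞 M) u : 𝓞 M) : M)) e
    have e2 : (((1 + algebraMap _ _ d * (⟨_, b⟩ - algebraMap _ _ s) * algebraMap _ _ t : 𝓞 M) : M)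
        - z) / 2 ^ m = algebraMap K M (c * π ^ N / 2 ^ m) * (1 - z) := by
      have : ((1 + algebraMap _ _ d * (⟨_, b⟩ - algebraMap _ _ s) * algebraMap _ _ t : 𝓞 M) : M) =
        1 + algebraMap K M d * (algebraMap K M s * z - algebraMap K M s) * algebraMap K M t := rfl
      rw [this, map_div₀, map_mul, map_pow, map_pow, map_ofNat, div_mul_eq_mul_div]
      congr 1
      linear_combination (z - 1) * e'
    rw [e2]
    refine Vi_mul ((vi_map _).2 ?_) (vi_sub (vi_int isIntegral_one) h')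
    rw [map_div₀, map_div₀, norm_div, map_pow, map_pow, map_ofNat, map_ofNat, norm_pow,
      div_le_one (by rw [n2]; positivity), map_mul, map_mul, norm_mul, map_pow, map_pow, norm_pow]
    exact (mul_le_of_le_one_left (by positivity) (ni (ι.comp J) c.isIntegral_coe)).trans hN.le

theorem pv_span (x : 𝓞 M) :
    Pv ι J (Ideal.span {x}) ↔ ‖ι (J (Algebra.norm K (x : M)))‖ = 1 := by
  constructor
  · rintro ⟨s, a, b⟩
    obtain ⟨y, e⟩ := Ideal.mem_span_singleton.1 b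
    have e' : algebraMap K M s * 1 = x * y := by
      simpa [coe_map] using congrArg (fun u : 𝓞 M => (u : M)) e
    have h1 := n_mul (ι := ι) (J := J) (s : K) (1 : M)
    rw [e', a, map_mul, map_mul, map_mul, norm_mul] at h1
    refine le_antisymm (vi_n (Vi_of ι J x)) ?_
    simp only [one_pow, map_one, norm_one, mul_one] at h1
    exact h1.ge.trans (mul_le_of_le_one_right (norm_nonneg _) (vi_n (Vi_of ι J y)))
  · intro h
    have x0 : (x : M) ≠ 0 := fun e => by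
      have _ := fd K M
      simp [e] at h
    refine ⟨⟨_, n_int (K := K) x.isIntegral_coe⟩, h, Ideal.mem_span_singleton.2
      ⟨⟨_, n_div J x.isIntegral_coe⟩, RingOfIntegers.ext ?_⟩⟩
    show algebraMap K M (Algebra.norm K (x : M)) = x * (_ / x)
    rw [mul_div_cancel₀ _ x0]

end Vl

end Vale.Agent.P004C.As
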